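import Mathlib

/-!
Polynomials of total degree at most one are affine.
-/

namespace Vale.Agent.P287

open MvPolynomial

lemma affine_of_totalDegree_le_one {K : Type*} [CommRing K] {n : ℕ} (p : MvPolynomial (Fin n) K)
    (hp : p.totalDegree ≤ 1) :
    p = C (coeff 0 p) + ∑ i, C (coeff (Finsupp.single i 1) p) * X i := by
  classical
  ext m
  rw [coeff_add, coeff_sum, coeff_C]
  simp only [coeff_C_mul, coeff_X]
  by_cases h2 : 2 ≤ m.degree
  · rw [coeff_eq_zero_of_totalDegree_lt, if_neg, Finset.sum_eq_zero]
    · simp
    · intro i _
      rw [if_neg, mul_zero]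
      rintro rfl
      simp at h2
    · rintro rfl
      simp at h2
    · rw [Finsupp.degree_apply] at h2
      omega
  · push Not at h2
    interval_cases h : m.degree
    · rw [Finsupp.degree_eq_zero_iff] at h
      subst h
      simp
    · obtain ⟨i, rfl⟩ : ∃ i, m = Finsupp.single i 1 := by
        obtain ⟨i, hi⟩ : ∃ i, m i ≠ 0 := by
          by_contra hc
          push Not at hc
          have : m = 0 := Finsupp.ext hc
          rw [this] at h
          simp at h
        refine ⟨i, ?_⟩
        have hle : Finsupp.single i 1 ≤ m := by
          rw [Finsupp.single_le_iff]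
          omega
        have hsum : Finsupp.single i 1 + (m - Finsupp.single i 1) = m := add_tsub_cancel_of_le hle
        have hd := congrArg Finsupp.degree hsum
        rw [map_add, h, Finsupp.degree_single] at hd
        have h0 : (m - Finsupp.single i 1).degree = 0 := by omega
        rw [Finsupp.degree_eq_zero_iff] at h0
        rw [h0, add_zero] at hsum
        exact hsum.symm
      rw [if_neg (by
        intro h
        have := congrArg (fun f => f i) h
        simp at this), Finset.sum_eq_single i]
      · simp
      · intro j _ hj
        rw [if_neg, mul_zero]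
        intro h
        exact hj ((Finsupp.single_left_inj one_ne_zero).mp h)
      · simp

lemma eval_affine {K : Type*} [CommRing K] {n : ℕ} (p : MvPolynomial (Fin n) K)
    (hp : p.totalDegree ≤ 1) :
    ∃ (c0 : K) (c : Fin n → K), ∀ (y : Fin n → K), aeval y p = c0 + ∑ i, c i * y i := by
  refine ⟨coeff 0 p, fun i => coeff (Finsupp.single i 1) p, fun y => ?_⟩
  conv_lhs => rw [affine_of_totalDegree_le_one p hp]
  simp

end Vale.Agent.P287
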