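import Mathlib

/-!
Fewer than `n` polynomials in `n` variables over an algebraically closed field, all vanishing at
the origin, have a common zero other than the origin.
-/

namespace Vale.Agent.P287

open MvPolynomial

variable {k : Type*} [Field k] [IsAlgClosed k]

/-- Translation by `x`, as an automorphism of the polynomial ring. -/
noncomputable def translate {n : ℕ} (x : Fin n → k) :
    MvPolynomial (Fin n) k ≃ₐ[k] MvPolynomial (Fin n) k :=
  AlgEquiv.ofAlgHom (aeval fun i => X i + C (x i)) (aeval fun i => X i - C (x i))
    (by ext i; simp) (by ext i; simp)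

omit [IsAlgClosed k] in
lemma eval_translate {n : ℕ} (x y : Fin n → k) (p : MvPolynomial (Fin n) k) :
    aeval y (translate x p) = aeval (y + x) p := by
  have : (aeval y).comp (translate x).toAlgHom = aeval (R := k) (y + x) := by
    ext i
    simp [translate]
  exact DFunLike.congr_fun this p

lemma height_vanishingIdeal_zero {n : ℕ} :
    (n : WithBot ℕ∞) ≤ ((vanishingIdeal k ({0} : Set (Fin n → k))).height : WithBot ℕ∞) := by
  have h1 : ringKrullDim (MvPolynomial (Fin n) k) = n := by
    rw [MvPolynomial.ringKrullDim_of_isNoetherianRing]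
    simp
  rw [← h1, ringKrullDim_le_iff_isMaximal_height_le]
  intro M hM
  obtain ⟨x, rfl⟩ := isMaximal_iff_eq_vanishingIdeal_singleton.mp hM
  apply le_of_eq
  congr 1
  rw [← (translate x).toRingEquiv.height_comap (vanishingIdeal k ({0} : Set (Fin n → k)))]
  congr 1
  ext p
  simp only [mem_vanishingIdeal_singleton_iff, Ideal.mem_comap]
  have := eval_translate x 0 p
  rw [zero_add] at this
  rw [← this]
  rfl

theorem exists_common_zero {n r : ℕ} (hr : r < n) (g : Fin r → MvPolynomial (Fin n) k)
    (h0 : ∀ i, aeval (0 : Fin n → k) (g i) = 0) :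
    ∃ x : Fin n → k, x ≠ 0 ∧ ∀ i, aeval x (g i) = 0 := by
  by_contra hcon
  push Not at hcon
  set I : Ideal (MvPolynomial (Fin n) k) := Ideal.span (Set.range g) with hI
  have hzl : zeroLocus k I = {0} := by
    rw [hI, zeroLocus_span]
    ext x
    simp only [Set.mem_range, forall_exists_index, forall_apply_eq_imp_iff, Set.mem_ofPred_eq,
      Set.mem_singleton_iff]
    constructor
    · intro h
      by_contra hx
      obtain ⟨i, hi⟩ := hcon x hx
      exact hi (h i)
    · rintro rfl
      exact h0
  have hrad : I.radical = vanishingIdeal k ({0} : Set (Fin n → k)) := by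
    rw [← hzl]
    exact (vanishingIdeal_zeroLocus_eq_radical I).symm
  have hmin : (vanishingIdeal k ({0} : Set (Fin n → k))) ∈ I.minimalPrimes := by
    refine ⟨⟨inferInstance, ?_⟩, ?_⟩
    · rw [← hrad]; exact Ideal.le_radical
    · rintro J ⟨hJ, hIJ⟩ _
      rw [← hrad]
      exact hJ.radical_le_iff.mpr hIJ
  have h1 := Ideal.height_le_card_of_mem_minimalPrimes_span (Set.finite_range g) hmin
  have h2 : (Set.range g).ncard ≤ r := by
    have := Set.ncard_image_le (s := (Set.univ : Set (Fin r))) (f := g) Set.finite_univ
    rw [Set.image_univ] at this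
    simpa using this
  have h3 : (n : WithBot ℕ∞) ≤ ((r : ℕ∞) : WithBot ℕ∞) := by
    refine le_trans (height_vanishingIdeal_zero (k := k)) ?_
    rw [WithBot.coe_le_coe]
    exact h1.trans (by exact_mod_cast h2)
  have : n ≤ r := by exact_mod_cast h3
  omega

end Vale.Agent.P287
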