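import Vale.Agent.P287.MainCase
import Vale.Agent.P287.CommonZero

/-!
A constant isotropic vector in the degenerate case.
-/

namespace Vale.Agent.P287

open MvPolynomial

section

variable (Q : Fin 3 → Matrix (Fin 6) (Fin 6) ℂ) (x : Fin 6 → ℂ)

/-- The determinant of the three vectors `a`, `b`, `c`. -/
def det3 (a b c : Fin 3 → ℂ) : ℂ :=
  a 0 * (b 1 * c 2 - b 2 * c 1) + a 1 * (b 2 * c 0 - b 0 * c 2) + a 2 * (b 0 * c 1 - b 1 * c 0)

/-- The common kernel of the polar forms with `x`. -/
def Ker (v : Fin 6 → ℂ) : Prop := ∀ k, pf (Q k) x v = 0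

/-- Values of the three quadratic forms. -/
noncomputable def bv (v : Fin 6 → ℂ) : Fin 3 → ℂ := fun k => qf (Q k) v

/-- The columns of the linear map `v ↦ (pf (Q k) x v)`. -/
noncomputable def nv (i : Fin 6) : Fin 3 → ℂ := fun k => pf (Q k) x (Pi.single i 1)

lemma aeval_pf_cst (k : Fin 3) (v : Fin 6 → ℂ) :
    aeval v (pf (Q k) (cst (MvPolynomial (Fin 6) ℂ) x) X) = pf (Q k) x v := by
  rw [map_pf]
  congr 1
  · funext i; simp [cst]
  · funext i; simp

lemma aeval_qf_X (k : Fin 3) (v : Fin 6 → ℂ) :
    aeval v (qf (Q k) (X : Fin 6 → MvPolynomial (Fin 6) ℂ)) = qf (Q k) v := by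
  rw [map_qf]
  congr 1
  funext i; simp

theorem exists_constant_zero (i0 : Fin 6)
    (hκ : ∀ v v' : Fin 6 → ℂ, Ker Q x v → Ker Q x v' → ∀ i j : Fin 6, ∀ m,
      det3 (nv Q x i) (bv Q v) (bv Q v') * nv Q x j m =
        det3 (nv Q x j) (bv Q v) (bv Q v') * nv Q x i m)
    (hn : ∃ i k, nv Q x i k ≠ 0) :
    ∃ v : Fin 6 → ℂ, v ≠ 0 ∧ v i0 = 0 ∧ Ker Q x v ∧ ∀ k, qf (Q k) v = 0 := by
  classical
  set NX : Fin 3 → MvPolynomial (Fin 6) ℂ :=
    fun k => pf (Q k) (cst (MvPolynomial (Fin 6) ℂ) x) X with hNX
  set QX : Fin 3 → MvPolynomial (Fin 6) ℂ :=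
    fun k => qf (Q k) (X : Fin 6 → MvPolynomial (Fin 6) ℂ) with hQX
  have hNv : ∀ k v, aeval v (NX k) = pf (Q k) x v := fun k v => aeval_pf_cst Q x k v
  have hQv : ∀ k v, aeval v (QX k) = qf (Q k) v := fun k v => aeval_qf_X Q k v
  have hN0 : ∀ k, aeval (0 : Fin 6 → ℂ) (NX k) = 0 := fun k => by rw [hNv, pf_zero_right]
  have hQ0 : ∀ k, aeval (0 : Fin 6 → ℂ) (QX k) = 0 := fun k => by rw [hQv, qf_zero]
  have hX0 : aeval (0 : Fin 6 → ℂ) (X i0 : MvPolynomial (Fin 6) ℂ) = 0 := by simp
  have hNsum : ∀ k v, pf (Q k) x v = ∑ i, nv Q x i k * v i := fun k v => pf_eq_sum (Q k) x v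
  have h56 : 5 < 6 := by norm_num
  by_cases hII : ∀ i j : Fin 6, ∀ k m, nv Q x i k * nv Q x j m = nv Q x i m * nv Q x j k
  · obtain ⟨i1, k1, hik⟩ := hn
    obtain ⟨v, hv, hz⟩ := exists_common_zero h56 ![NX k1, X i0, QX 0, QX 1, QX 2] (by
      intro i
      fin_cases i
      · exact hN0 k1
      · exact hX0
      · exact hQ0 0
      · exact hQ0 1
      · exact hQ0 2)
    have h0 : pf (Q k1) x v = 0 := by rw [← hNv]; exact hz 0
    have h1 : v i0 = 0 := by have := hz 1; simpa using this
    have h2 : qf (Q 0) v = 0 := by rw [← hQv]; exact hz 2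
    have h3 : qf (Q 1) v = 0 := by rw [← hQv]; exact hz 3
    have h4 : qf (Q 2) v = 0 := by rw [← hQv]; exact hz 4
    refine ⟨v, hv, h1, ?_, ?_⟩
    · intro k
      have : nv Q x i1 k1 * pf (Q k) x v = nv Q x i1 k * pf (Q k1) x v := by
        rw [hNsum, hNsum, Finset.mul_sum, Finset.mul_sum]
        refine Finset.sum_congr rfl fun i _ => ?_
        linear_combination v i * hII i1 i k1 k
      rw [h0, mul_zero] at this
      exact (mul_eq_zero.mp this).resolve_left hik
    · intro k
      fin_cases k
      · exact h2
      · exact h3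
      · exact h4
  · push Not at hII
    obtain ⟨i1, j1, k1, k2, hmin⟩ := hII
    -- all `κ` are orthogonal to all columns
    have hκn : ∀ v v' : Fin 6 → ℂ, Ker Q x v → Ker Q x v' → ∀ i,
        det3 (nv Q x i) (bv Q v) (bv Q v') = 0 := by
      intro v v' hv hv' i
      have hi1 : det3 (nv Q x i1) (bv Q v) (bv Q v') = 0 := by
        by_contra hne
        apply hmin
        have e1 := hκ v v' hv hv' i1 j1 k1
        have e2 := hκ v v' hv hv' i1 j1 k2
        -- d1 * n_j k1 = dj * n_i1 k1, d1 * n_j k2 = dj * n_i1 k2
        have : det3 (nv Q x i1) (bv Q v) (bv Q v') *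
            (nv Q x i1 k1 * nv Q x j1 k2 - nv Q x i1 k2 * nv Q x j1 k1) = 0 := by
          linear_combination (nv Q x i1 k1) * e2 - (nv Q x i1 k2) * e1
        have := (mul_eq_zero.mp this).resolve_left hne
        linear_combination this
      obtain ⟨m, hm⟩ : ∃ m, nv Q x i1 m ≠ 0 := by
        by_contra h
        push Not at h
        apply hmin
        rw [h k1, h k2]
        ring
      have e := hκ v v' hv hv' i i1 m
      rw [hi1, zero_mul] at e
      exact (mul_eq_zero.mp e).resolve_right hm
    by_cases hIa : ∀ v v' : Fin 6 → ℂ, Ker Q x v → Ker Q x v' → ∀ k m,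
        bv Q v k * bv Q v' m = bv Q v m * bv Q v' k
    · -- all values are proportional
      obtain ⟨k, hk⟩ : ∃ k : Fin 3, ∀ v, Ker Q x v → bv Q v k = 0 → ∀ m, bv Q v m = 0 := by
        by_cases h : ∃ v1 k, Ker Q x v1 ∧ bv Q v1 k ≠ 0
        · obtain ⟨v1, k, hv1, hk⟩ := h
          refine ⟨k, fun v hv hvk m => ?_⟩
          have := hIa v v1 hv hv1 m k
          rw [hvk, zero_mul] at this
          exact (mul_eq_zero.mp this).resolve_right hk
        · push Not at h
          exact ⟨0, fun v hv _ m => h v m hv⟩
      obtain ⟨v, hv, hz⟩ := exists_common_zero h56 ![NX 0, NX 1, NX 2, X i0, QX k] (by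
        intro i
        fin_cases i
        · exact hN0 0
        · exact hN0 1
        · exact hN0 2
        · exact hX0
        · exact hQ0 k)
      have h0 : pf (Q 0) x v = 0 := by rw [← hNv]; exact hz 0
      have h1 : pf (Q 1) x v = 0 := by rw [← hNv]; exact hz 1
      have h2 : pf (Q 2) x v = 0 := by rw [← hNv]; exact hz 2
      have h3 : v i0 = 0 := by have := hz 3; simpa using this
      have h4 : qf (Q k) v = 0 := by rw [← hQv]; exact hz 4
      have hker : Ker Q x v := by
        intro m
        fin_cases m
        · exact h0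
        · exact h1
        · exact h2
      exact ⟨v, hv, h3, hker, hk v hker h4⟩
    · push Not at hIa
      obtain ⟨v1, v2, hv1, hv2, k, m, hkm⟩ := hIa
      -- the vector κ
      set b1 := bv Q v1 with hb1
      set b2 := bv Q v2 with hb2
      have hdet : ∀ v, Ker Q x v → det3 (bv Q v) b1 b2 = 0 := by
        intro v hv
        obtain ⟨i, k, hik⟩ := hn
        have e1 := hκn v1 v2 hv1 hv2 i
        have e2 := hκn v2 v hv2 hv i
        have e3 := hκn v v1 hv hv1 i
        have : det3 (bv Q v) b1 b2 * nv Q x i k = 0 := by
          have : det3 (bv Q v) b1 b2 * nv Q x i k =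
              det3 (nv Q x i) (bv Q v1) (bv Q v2) * bv Q v k +
              det3 (nv Q x i) (bv Q v2) (bv Q v) * bv Q v1 k +
              det3 (nv Q x i) (bv Q v) (bv Q v1) * bv Q v2 k := by
            fin_cases k <;> simp only [det3, hb1, hb2, Fin.zero_eta, Fin.mk_one, Fin.reduceFinMk] <;>
              ring
          rw [this, e1, e2, e3]
          ring
        exact (mul_eq_zero.mp this).resolve_right hik
      have hperp : ∀ v, det3 (fun k => pf (Q k) x v) b1 b2 = 0 := by
        intro v
        have e : det3 (fun k => pf (Q k) x v) b1 b2 = ∑ i, det3 (nv Q x i) b1 b2 * v i := by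
          simp only [det3, hNsum]
          simp only [Finset.sum_mul, ← Finset.sum_add_distrib]
          refine Finset.sum_congr rfl fun i _ => ?_
          ring
        rw [e]
        refine Finset.sum_eq_zero fun i _ => ?_
        rw [hκn v1 v2 hv1 hv2 i, zero_mul]
      -- one of the components of κ is nonzero
      have hcomp : b1 1 * b2 2 - b1 2 * b2 1 ≠ 0 ∨ b1 2 * b2 0 - b1 0 * b2 2 ≠ 0 ∨
          b1 0 * b2 1 - b1 1 * b2 0 ≠ 0 := by
        by_contra h
        push Not at h
        obtain ⟨h0, h1, h2⟩ := h
        apply hkm
        fin_cases k <;> fin_cases m <;>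
          simp only [Fin.zero_eta, Fin.mk_one, Fin.reduceFinMk] <;>
          first
            | linear_combination h0
            | linear_combination h1
            | linear_combination h2
            | linear_combination -h0
            | linear_combination -h1
            | linear_combination -h2
            | ring
      rcases hcomp with hc | hc | hc
      · obtain ⟨v, hv, hz⟩ := exists_common_zero h56 ![NX 1, NX 2, X i0, QX 1, QX 2] (by
          intro i
          fin_cases i
          · exact hN0 1
          · exact hN0 2
          · exact hX0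
          · exact hQ0 1
          · exact hQ0 2)
        have h1 : pf (Q 1) x v = 0 := by rw [← hNv]; exact hz 0
        have h2 : pf (Q 2) x v = 0 := by rw [← hNv]; exact hz 1
        have h3 : v i0 = 0 := by have := hz 2; simpa using this
        have h4 : bv Q v 1 = 0 := by rw [bv, ← hQv]; exact hz 3
        have h5 : bv Q v 2 = 0 := by rw [bv, ← hQv]; exact hz 4
        have h0 : pf (Q 0) x v = 0 := by
          have := hperp v
          simp only [det3, h1, h2, zero_mul, add_zero] at this
          exact (mul_eq_zero.mp this).resolve_right hc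
        have hker : Ker Q x v := by
          intro m
          fin_cases m
          · exact h0
          · exact h1
          · exact h2
        have h6 : bv Q v 0 = 0 := by
          have := hdet v hker
          simp only [det3, h4, h5, zero_mul, add_zero] at this
          exact (mul_eq_zero.mp this).resolve_right hc
        refine ⟨v, hv, h3, hker, fun k => ?_⟩
        fin_cases k
        · exact h6
        · exact h4
        · exact h5
      · obtain ⟨v, hv, hz⟩ := exists_common_zero h56 ![NX 0, NX 2, X i0, QX 0, QX 2] (by
          intro i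
          fin_cases i
          · exact hN0 0
          · exact hN0 2
          · exact hX0
          · exact hQ0 0
          · exact hQ0 2)
        have h1 : pf (Q 0) x v = 0 := by rw [← hNv]; exact hz 0
        have h2 : pf (Q 2) x v = 0 := by rw [← hNv]; exact hz 1
        have h3 : v i0 = 0 := by have := hz 2; simpa using this
        have h4 : bv Q v 0 = 0 := by rw [bv, ← hQv]; exact hz 3
        have h5 : bv Q v 2 = 0 := by rw [bv, ← hQv]; exact hz 4
        have h0 : pf (Q 1) x v = 0 := by
          have := hperp v
          simp only [det3, h1, h2, zero_mul, add_zero, zero_add] at this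
          exact (mul_eq_zero.mp this).resolve_right hc
        have hker : Ker Q x v := by
          intro m
          fin_cases m
          · exact h1
          · exact h0
          · exact h2
        have h6 : bv Q v 1 = 0 := by
          have := hdet v hker
          simp only [det3, h4, h5, zero_mul, add_zero, zero_add] at this
          exact (mul_eq_zero.mp this).resolve_right hc
        refine ⟨v, hv, h3, hker, fun k => ?_⟩
        fin_cases k
        · exact h4
        · exact h6
        · exact h5
      · obtain ⟨v, hv, hz⟩ := exists_common_zero h56 ![NX 0, NX 1, X i0, QX 0, QX 1] (by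
          intro i
          fin_cases i
          · exact hN0 0
          · exact hN0 1
          · exact hX0
          · exact hQ0 0
          · exact hQ0 1)
        have h1 : pf (Q 0) x v = 0 := by rw [← hNv]; exact hz 0
        have h2 : pf (Q 1) x v = 0 := by rw [← hNv]; exact hz 1
        have h3 : v i0 = 0 := by have := hz 2; simpa using this
        have h4 : bv Q v 0 = 0 := by rw [bv, ← hQv]; exact hz 3
        have h5 : bv Q v 1 = 0 := by rw [bv, ← hQv]; exact hz 4
        have h0 : pf (Q 2) x v = 0 := by
          have := hperp v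
          simp only [det3, h1, h2, zero_mul, add_zero, zero_add] at this
          exact (mul_eq_zero.mp this).resolve_right hc
        have hker : Ker Q x v := by
          intro m
          fin_cases m
          · exact h1
          · exact h2
          · exact h0
        have h6 : bv Q v 2 = 0 := by
          have := hdet v hker
          simp only [det3, h4, h5, zero_mul, add_zero, zero_add] at this
          exact (mul_eq_zero.mp this).resolve_right hc
        refine ⟨v, hv, h3, hker, fun k => ?_⟩
        fin_cases k
        · exact h4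
        · exact h5
        · exact h6

end

end Vale.Agent.P287
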