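import Vale.Agent.P287.Constant
import Vale.Agent.P287.Affine

/-!
The projection from the base point does not degenerate when the quadric is anisotropic.
-/

namespace Vale.Agent.P287

open MvPolynomial

section fK

variable {K : Type} [Field K] (q : Matrix (Fin 4) (Fin 4) K)

/-- The affine equation of the quadric `qf q = 0`. -/
noncomputable def fK : MvPolynomial (Fin 3) K := qf q (Fin.cons 1 X)

lemma aeval_fK {A : Type*} [CommRing A] [Algebra K A] (y : Fin 3 → A) :
    aeval y (fK q) = qf q (Fin.cons 1 y) := by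
  rw [fK, map_qf]
  congr 1
  funext i
  refine Fin.cases ?_ (fun i => ?_) i
  · simp
  · simp

lemma totalDegree_cons_one (i : Fin 4) :
    ((Fin.cons 1 X : Fin 4 → MvPolynomial (Fin 3) K) i).totalDegree ≤ 1 := by
  refine Fin.cases ?_ (fun i => ?_) i
  · simp
  · simp

lemma totalDegree_act_le {m : ℕ} (P : Matrix (Fin m) (Fin 4) K) (i : Fin m) :
    (act P (Fin.cons 1 X : Fin 4 → MvPolynomial (Fin 3) K) i).totalDegree ≤ 1 := by
  refine totalDegree_finsetSum_le fun j _ => ?_
  refine (totalDegree_mul _ _).trans ?_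
  have h1 : (algebraMap K (MvPolynomial (Fin 3) K) (P i j)).totalDegree = 0 := totalDegree_C _
  rw [h1, zero_add]
  exact totalDegree_cons_one j

lemma totalDegree_qf_le {k : Type*} [CommRing k] [Algebra k K] {n : ℕ}
    (Q : Matrix (Fin n) (Fin n) k) (w : Fin n → MvPolynomial (Fin 3) K)
    (hw : ∀ i, (w i).totalDegree ≤ 1) : (qf Q w).totalDegree ≤ 2 := by
  refine totalDegree_finsetSum_le fun i _ => totalDegree_finsetSum_le fun j _ => ?_
  refine (totalDegree_mul _ _).trans ?_
  have h1 : (algebraMap k (MvPolynomial (Fin 3) K) (Q i j)).totalDegree = 0 := totalDegree_C _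
  rw [h1, zero_add]
  refine (totalDegree_mul _ _).trans ?_
  have := hw i
  have := hw j
  omega

lemma totalDegree_pf_cst_le [Algebra ℂ K] {n : ℕ} (Q : Matrix (Fin n) (Fin n) ℂ) (x : Fin n → ℂ)
    (w : Fin n → MvPolynomial (Fin 3) K) (hw : ∀ i, (w i).totalDegree ≤ 1) :
    (pf Q (cst _ x) w).totalDegree ≤ 1 := by
  refine totalDegree_finsetSum_le fun i _ => totalDegree_finsetSum_le fun j _ => ?_
  have hc : ∀ c : ℂ, (algebraMap ℂ (MvPolynomial (Fin 3) K) c).totalDegree = 0 :=
    fun c => totalDegree_C _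
  refine (totalDegree_mul _ _).trans ?_
  rw [hc, zero_add]
  refine (totalDegree_add _ _).trans (max_le ?_ ?_)
  · refine (totalDegree_mul _ _).trans ?_
    rw [cst, hc, zero_add]
    exact hw j
  · refine (totalDegree_mul _ _).trans ?_
    rw [cst, hc, add_zero]
    exact hw i

lemma two_le_totalDegree_fK [CharZero K] (nd : ∀ v : Fin 4 → K, (∀ w, pf q v w = 0) → v = 0) :
    2 ≤ (fK q).totalDegree := by
  by_contra hlt
  push Not at hlt
  obtain ⟨c0, c, hc⟩ := eval_affine (fK q) (by omega)
  simp only [aeval_fK] at hc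
  have hcons : ∀ y : Fin 3 → K, (Fin.cons 1 y : Fin 4 → K) = Pi.single 0 1 + Fin.cons 0 y := by
    intro y
    funext i
    refine Fin.cases ?_ (fun i => ?_) i
    · simp
    · simp
  have hneg : ∀ y : Fin 3 → K, (Fin.cons 0 (-y) : Fin 4 → K) = (-1 : K) • Fin.cons 0 y := by
    intro y
    funext i
    refine Fin.cases ?_ (fun i => ?_) i
    · simp
    · simp
  have hiso : ∀ y : Fin 3 → K, qf q (Fin.cons 0 y : Fin 4 → K) = 0 := by
    intro y
    have h1 := hc y
    have h2 := hc (-y)
    have h3 := hc 0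
    rw [hcons, qf_add] at h1 h2 h3
    rw [hneg, qf_smul, pf_smul_right] at h2
    have h0 : (Fin.cons 0 (0 : Fin 3 → K) : Fin 4 → K) = 0 := by
      funext i
      refine Fin.cases ?_ (fun i => ?_) i
      · simp
      · simp
    rw [h0, qf_zero, pf_zero_right] at h3
    have hs : ∑ i, c i * (-y) i = - ∑ i, c i * y i := by
      simp
    rw [hs] at h2
    have hs0 : ∑ i, c i * (0 : Fin 3 → K) i = 0 := by simp
    rw [hs0] at h3
    have : 2 * qf q (Fin.cons 0 y : Fin 4 → K) = 0 := by
      linear_combination h1 + h2 - 2 * h3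
    exact (mul_eq_zero.mp this).resolve_left two_ne_zero
  have hpf : ∀ y y' : Fin 3 → K, pf q (Fin.cons 0 y : Fin 4 → K) (Fin.cons 0 y') = 0 := by
    intro y y'
    have h := qf_add q (Fin.cons 0 y : Fin 4 → K) (Fin.cons 0 y')
    have h2 : (Fin.cons 0 y + Fin.cons 0 y' : Fin 4 → K) = Fin.cons 0 (y + y') := by
      funext i
      refine Fin.cases ?_ (fun i => ?_) i
      · simp
      · simp
    rw [h2, hiso, hiso, hiso] at h
    simpa using h.symm
  obtain ⟨y, hy, hy0⟩ : ∃ y : Fin 3 → K, y ≠ 0 ∧
      pf q (Pi.single 0 1 : Fin 4 → K) (Fin.cons 0 y) = 0 := by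
    set α := pf q (Pi.single 0 1 : Fin 4 → K) (Fin.cons 0 (Pi.single 0 1)) with hα
    set β := pf q (Pi.single 0 1 : Fin 4 → K) (Fin.cons 0 (Pi.single 1 1)) with hβ
    by_cases h : α = 0
    · exact ⟨Pi.single 0 1, by simp, h⟩
    · refine ⟨β • Pi.single 0 1 + (-α) • Pi.single 1 1, ?_, ?_⟩
      · intro h'
        have := congrFun h' 1
        simp at this
        exact h this
      · have h2 : (Fin.cons 0 (β • Pi.single 0 1 + (-α) • Pi.single 1 1) : Fin 4 → K) =
            β • Fin.cons 0 (Pi.single 0 1) + (-α) • Fin.cons 0 (Pi.single 1 1) := by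
          funext i
          refine Fin.cases ?_ (fun i => ?_) i
          · simp
          · simp
        rw [h2, pf_add_right, pf_smul_right, pf_smul_right, ← hα, ← hβ]
        ring
  have hv := nd (Fin.cons 0 y) (by
    intro w
    have hw : w = w 0 • (Pi.single 0 1 : Fin 4 → K) + Fin.cons 0 (Fin.tail w) := by
      funext i
      refine Fin.cases ?_ (fun i => ?_) i
      · simp
      · simp [Fin.tail]
    rw [hw, pf_add_right, pf_smul_right, hpf, pf_comm, hy0]
    ring)
  apply hy
  funext i
  have := congrFun hv i.succ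
  simpa using this

end fK

section

variable {K E : Type} [Field K] [Field E] [Algebra ℂ K] [Algebra ℂ E] [Algebra K E]
    [IsScalarTower ℂ K E] {t : Fin 3 → K} {q : Matrix (Fin 4) (Fin 4) K} {η : Fin 4 → E}
    {Q : Fin 3 → Matrix (Fin 6) (Fin 6) ℂ} {x : Fin 6 → ℂ} {l : K}
    {P : Matrix (Fin 6) (Fin 4) K}

/-- One component of the cross product of the vectors of values of the polar forms with the base
point and of the quadratic forms. -/
noncomputable def cub (Q : Fin 3 → Matrix (Fin 6) (Fin 6) ℂ) (x : Fin 6 → ℂ) {A : Type*}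
    [CommRing A] [Algebra ℂ A] (z : Fin 6 → A) : A :=
  pf (Q 1) (cst A x) z * qf (Q 2) z - pf (Q 2) (cst A x) z * qf (Q 1) z

lemma map_cub {A A' : Type*} [CommRing A] [Algebra ℂ A] [CommRing A'] [Algebra ℂ A']
    (f : A →ₐ[ℂ] A') (z : Fin 6 → A) : f (cub Q x z) = cub Q x (fun i => f (z i)) := by
  have h : (fun i => f (cst A x i)) = cst A' x := by
    funext i
    exact AlgHom.commutes f (x i)
  simp only [cub, map_sub, map_mul, map_pf, map_qf, h]

lemma cub_smul {A : Type*} [CommRing A] [Algebra ℂ A] (c : A) (z : Fin 6 → A) :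
    cub Q x (c • z) = c ^ 3 * cub Q x z := by
  simp only [cub, pf_smul_right, qf_smul]
  ring

/-- The cubic form `cub` is a multiple of the equation of the quadric. -/
lemma exists_linear [CharZero K] (H : QuadricPoint K E t q η)
    (hC : ∀ G : MvPolynomial (Fin 3) K, aeval (fun i : Fin 3 => η i.succ) G = 0 → fK q ∣ G)
    (h0 : cub Q x (act P η) = 0) :
    ∃ L : Fin 4 → K, ∀ u : Fin 4 → K, cub Q x (act P u) = qf q u * ∑ i, L i * u i := by
  classical
  set Y : Fin 4 → MvPolynomial (Fin 3) K := Fin.cons 1 X with hY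
  set G : MvPolynomial (Fin 3) K := cub Q x (act P Y) with hG
  have hGe : ∀ (B : Type) [CommRing B] [Algebra ℂ B] [Algebra K B] [IsScalarTower ℂ K B]
      (y : Fin 3 → B), aeval y G = cub Q x (act P (Fin.cons 1 y)) := by
    intro B _ _ _ _ y
    have h1 := map_cub (Q := Q) (x := x) ((aeval (R := K) y).restrictScalars ℂ) (act P Y)
    simp only [AlgHom.coe_restrictScalars'] at h1
    rw [hG, h1]
    congr 1
    rw [map_act]
    congr 1
    funext i
    refine Fin.cases ?_ (fun i => ?_) i
    · simp [hY]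
    · simp [hY]
  have hηcons : (Fin.cons 1 (fun i : Fin 3 => η i.succ) : Fin 4 → E) = η := by
    funext i
    refine Fin.cases ?_ (fun i => ?_) i
    · simp [H.η0]
    · simp
  have hdvd : fK q ∣ G := by
    apply hC
    rw [hGe E, hηcons, h0]
  obtain ⟨ℓ, hℓ⟩ := hdvd
  have hdeg : ℓ.totalDegree ≤ 1 := by
    by_cases hℓ0 : ℓ = 0
    · rw [hℓ0]; simp
    have hf0 : fK q ≠ 0 := by
      intro h
      have := two_le_totalDegree_fK q H.nd
      rw [h] at this
      simp at this
    have h1 := congrArg totalDegree hℓ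
    rw [totalDegree_mul_of_isDomain hf0 hℓ0] at h1
    have h2 := two_le_totalDegree_fK q H.nd
    have h3 : G.totalDegree ≤ 3 := by
      have hw : ∀ i, (act P Y i).totalDegree ≤ 1 := totalDegree_act_le P
      have ha : ∀ k, (pf (Q k) (cst _ x) (act P Y)).totalDegree ≤ 1 :=
        fun k => totalDegree_pf_cst_le (Q k) x _ hw
      have hb : ∀ k, (qf (Q k) (act P Y)).totalDegree ≤ 2 := fun k => totalDegree_qf_le (Q k) _ hw
      refine (totalDegree_sub _ _).trans (max_le ?_ ?_)
      · refine (totalDegree_mul _ _).trans ?_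
        have := ha 1
        have := hb 2
        omega
      · refine (totalDegree_mul _ _).trans ?_
        have := ha 2
        have := hb 1
        omega
    omega
  obtain ⟨c0, c, hc⟩ := eval_affine ℓ hdeg
  refine ⟨Fin.cons c0 c, ?_⟩
  -- first for `u 0 ≠ 0`
  have key : ∀ u : Fin 4 → K, u 0 ≠ 0 → cub Q x (act P u) =
      qf q u * ∑ i, (Fin.cons c0 c : Fin 4 → K) i * u i := by
    intro u hu
    set y : Fin 3 → K := fun i => u i.succ / u 0 with hy
    have huy : u = u 0 • (Fin.cons 1 y : Fin 4 → K) := by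
      funext i
      refine Fin.cases ?_ (fun i => ?_) i
      · simp
      · simp [hy]
        field_simp
    have h1 := hGe K y
    rw [hℓ, map_mul, aeval_fK, hc] at h1
    have h2 : cub Q x (act P u) = u 0 ^ 3 * cub Q x (act P (Fin.cons 1 y)) := by
      conv_lhs => rw [huy, act_smul, cub_smul]
    have h3 : qf q u = u 0 ^ 2 * qf q (Fin.cons 1 y : Fin 4 → K) := by
      conv_lhs => rw [huy, qf_smul]
    have h4 : ∑ i, (Fin.cons c0 c : Fin 4 → K) i * u i = u 0 * (c0 + ∑ i, c i * y i) := by
      rw [Fin.sum_univ_succ, Fin.cons_zero, mul_add, Finset.mul_sum]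
      congr 1
      · ring
      · refine Finset.sum_congr rfl fun i _ => ?_
        simp only [Fin.cons_succ, hy]
        field_simp
    rw [h2, h3, h4, ← h1]
    ring
  -- then for all `u`
  set D : MvPolynomial (Fin 4) K :=
    X 0 * (cub Q x (act P X) - qf q X * ∑ i, C ((Fin.cons c0 c : Fin 4 → K) i) * X i) with hD
  have hDe : ∀ u : Fin 4 → K, aeval u D = u 0 * (cub Q x (act P u) -
      qf q u * ∑ i, (Fin.cons c0 c : Fin 4 → K) i * u i) := by
    intro u
    have h1 := map_cub (Q := Q) (x := x) ((aeval (R := K) u).restrictScalars ℂ) (act P X)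
    simp only [AlgHom.coe_restrictScalars'] at h1
    rw [hD, map_mul, map_sub, map_mul, h1, map_act, map_qf, map_sum]
    simp
  have hD0 : D = 0 := by
    apply MvPolynomial.funext
    intro u
    rw [← MvPolynomial.coe_aeval_eq_eval, RingHom.coe_coe, hDe, map_zero]
    by_cases hu : u 0 = 0
    · rw [hu, zero_mul]
    · rw [key u hu, sub_self, mul_zero]
  have hD1 := (mul_eq_zero.mp (hD ▸ hD0)).resolve_left (X_ne_zero 0)
  intro u
  have h1 := map_cub (Q := Q) (x := x) ((aeval (R := K) u).restrictScalars ℂ) (act P X)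
  simp only [AlgHom.coe_restrictScalars'] at h1
  have h2 := congrArg (aeval (R := K) u) hD1
  rw [map_zero, map_sub, map_mul, h1, map_act, map_qf, map_sum] at h2
  simp only [aeval_X, map_mul, aeval_C, Algebra.algebraMap_self, RingHom.id_apply] at h2
  exact sub_eq_zero.mp h2

end

end Vale.Agent.P287
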