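import Vale.Agent.P287.FunctionField

/-!
Every cubic form vanishing on the plane `x₀ = x₁ = x₂ = 0` is of the form `cubic B`.
-/

namespace Vale.Agent.P287

open MvPolynomial

lemma qf_add_matrix {k A : Type*} [CommRing k] [CommRing A] [Algebra k A] {n : ℕ}
    (Q Q' : Matrix (Fin n) (Fin n) k) (w : Fin n → A) : qf (Q + Q') w = qf Q w + qf Q' w := by
  simp only [qf, ← Finset.sum_add_distrib, Matrix.add_apply, map_add]
  refine Finset.sum_congr rfl fun i _ => Finset.sum_congr rfl fun j _ => ?_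
  ring

lemma qf_zero_matrix {k A : Type*} [CommRing k] [CommRing A] [Algebra k A] {n : ℕ}
    (w : Fin n → A) : qf (0 : Matrix (Fin n) (Fin n) k) w = 0 := by
  simp [qf]

lemma qf_single {k A : Type*} [CommRing k] [CommRing A] [Algebra k A] {n : ℕ}
    (i j : Fin n) (c : k) (w : Fin n → A) :
    qf (Matrix.single i j c) w = algebraMap k A c * (w i * w j) := by
  classical
  rw [qf, Finset.sum_eq_single i, Finset.sum_eq_single j]
  · simp
  · intro b _ hb
    rw [Matrix.single_apply_of_col_ne _ _ hb.symm]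
    simp
  · simp
  · intro b _ hb
    refine Finset.sum_eq_zero fun a _ => ?_
    rw [Matrix.single_apply_of_row_ne hb.symm]
    simp
  · simp

lemma cubic_add (B B' : Fin 3 → Matrix (Fin 6) (Fin 6) ℂ) :
    cubic (B + B') = cubic B + cubic B' := by
  simp only [cubic, ← Finset.sum_add_distrib, Pi.add_apply, qf_add_matrix, mul_add]

lemma cubic_zero : cubic 0 = 0 := by
  simp [cubic, qf_zero_matrix]

lemma exists_cubic_sum {ι : Type*} (s : Finset ι) (g : ι → MvPolynomial (Fin 6) ℂ)
    (h : ∀ i ∈ s, ∃ B, g i = cubic B) : ∃ B, ∑ i ∈ s, g i = cubic B := by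
  classical
  induction s using Finset.induction_on with
  | empty => exact ⟨0, by rw [cubic_zero]; simp⟩
  | insert a s ha ih =>
    obtain ⟨B1, h1⟩ := ih fun i hi => h i (Finset.mem_insert_of_mem hi)
    obtain ⟨B2, h2⟩ := h a (Finset.mem_insert_self a s)
    exact ⟨B2 + B1, by rw [Finset.sum_insert ha, h1, h2, cubic_add]⟩

lemma exists_cubic_monomial (m : Fin 6 →₀ ℕ) (hm : m.degree = 3) (k : Fin 3)
    (hk : m (Fin.castAdd 3 k) ≠ 0) (c : ℂ) : ∃ B, monomial m c = cubic B := by
  classical
  -- split off one variable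
  have split : ∀ (m : Fin 6 →₀ ℕ) (i : Fin 6), m i ≠ 0 →
      ∃ m', m = Finsupp.single i 1 + m' ∧ m.degree = m'.degree + 1 := by
    intro m i hi
    have hle : Finsupp.single i 1 ≤ m := by
      rw [Finsupp.single_le_iff]
      omega
    refine ⟨m - Finsupp.single i 1, (add_tsub_cancel_of_le hle).symm, ?_⟩
    have hd := congrArg Finsupp.degree (add_tsub_cancel_of_le hle)
    rw [map_add, Finsupp.degree_single] at hd
    omega
  have exi : ∀ (m : Fin 6 →₀ ℕ), m.degree ≠ 0 → ∃ i, m i ≠ 0 := by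
    intro m hm
    by_contra h
    push Not at h
    apply hm
    have : m = 0 := Finsupp.ext h
    rw [this]
    simp
  obtain ⟨m1, hm1, hd1⟩ := split m _ hk
  obtain ⟨i, hi⟩ := exi m1 (by omega)
  obtain ⟨m2, hm2, hd2⟩ := split m1 i hi
  obtain ⟨j, hj⟩ := exi m2 (by omega)
  obtain ⟨m3, hm3, hd3⟩ := split m2 j hj
  have hm30 : m3 = 0 := by
    rw [← Finsupp.degree_eq_zero_iff]
    omega
  refine ⟨Pi.single k (Matrix.single i j c), ?_⟩
  rw [cubic, Finset.sum_eq_single k]
  · rw [Pi.single_eq_same, qf_single, hm1, hm2, hm3, hm30, add_zero, MvPolynomial.algebraMap_eq]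
    simp only [X, C_mul_monomial, monomial_mul, one_mul, mul_one]
  · intro b _ hb
    rw [Pi.single_eq_of_ne hb, qf_zero_matrix, mul_zero]
  · simp

theorem exists_cubic (F : MvPolynomial (Fin 6) ℂ) (hF : F.IsHomogeneous 3)
    (h0 : ∀ y : Fin 3 → ℂ, aeval ![0, 0, 0, y 0, y 1, y 2] F = 0) :
    ∃ B, F = cubic B := by
  classical
  set s1 := F.support.filter (fun m => ∃ k : Fin 3, m (Fin.castAdd 3 k) ≠ 0) with hs1
  set s0 := F.support.filter (fun m => ¬ ∃ k : Fin 3, m (Fin.castAdd 3 k) ≠ 0) with hs0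
  have hsum : F = ∑ m ∈ s1, monomial m (coeff m F) + ∑ m ∈ s0, monomial m (coeff m F) := by
    rw [hs1, hs0, Finset.sum_filter_add_sum_filter_not]
    exact (support_sum_monomial_coeff F).symm
  obtain ⟨B, hB⟩ := exists_cubic_sum s1 (fun m => monomial m (coeff m F)) (by
    intro m hm
    rw [hs1, Finset.mem_filter] at hm
    obtain ⟨hm1, k, hk⟩ := hm
    refine exists_cubic_monomial m ?_ k hk _
    have := hF (mem_support_iff.mp hm1)
    rw [Finsupp.degree_eq_weight_one]
    exact this)
  refine ⟨B, ?_⟩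
  have hz : ∑ m ∈ s0, monomial m (coeff m F) = 0 := by
    apply MvPolynomial.funext
    intro z
    have h1 : aeval ![0, 0, 0, z 3, z 4, z 5] (∑ m ∈ s0, monomial m (coeff m F)) = 0 := by
      have h2 := h0 ![z 3, z 4, z 5]
      rw [hsum, hB, map_add, aeval_cubic, Finset.sum_eq_zero, zero_add] at h2
      · exact h2
      · intro k _
        fin_cases k <;> simp
    rw [map_zero, ← h1, map_sum, map_sum]
    refine Finset.sum_congr rfl fun m hm => ?_
    rw [hs0, Finset.mem_filter] at hm
    have hm2 := hm.2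
    push Not at hm2
    have m0 : m 0 = 0 := hm2 0
    have m1 : m 1 = 0 := hm2 1
    have m2 : m 2 = 0 := hm2 2
    rw [eval_monomial, aeval_monomial, Finsupp.prod_fintype _ _ (by simp),
      Finsupp.prod_fintype _ _ (by simp), Fin.prod_univ_six, Fin.prod_univ_six]
    simp [m0, m1, m2]
  rw [hz, add_zero, hB] at hsum
  exact hsum

end Vale.Agent.P287
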