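import Vale.Agent.P287.SmoothNd
import Vale.Agent.P287.CommonZero

/-!
Smoothness of the cubic implies that its affine equation is a prime polynomial.
-/

namespace Vale.Agent.P287

open MvPolynomial

lemma cons_one_eq {K : Type*} [CommRing K] (y : Fin 3 → K) :
    (Fin.cons 1 y : Fin 4 → K) = Pi.single 0 1 + Fin.cons 0 y := by
  funext i
  refine Fin.cases ?_ (fun i => ?_) i
  · simp
  · simp

/-- A quadratic form vanishing for `v 0 = 1` vanishes. -/
lemma qf_eq_zero_of_cons {K : Type*} [Field K] [CharZero K] (M : Matrix (Fin 4) (Fin 4) K)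
    (h : ∀ y : Fin 3 → K, qf M (Fin.cons 1 y : Fin 4 → K) = 0) (v : Fin 4 → K) : qf M v = 0 := by
  by_cases hv : v 0 = 0
  · have hv' : v = Fin.cons 0 (Fin.tail v) := by
      funext i
      refine Fin.cases ?_ (fun i => ?_) i
      · simpa using hv
      · simp [Fin.tail]
    have hneg : (Fin.cons 0 (-Fin.tail v) : Fin 4 → K) = (-1 : K) • Fin.cons 0 (Fin.tail v) := by
      funext i
      refine Fin.cases ?_ (fun i => ?_) i
      · simp
      · simp
    have h1 := h (Fin.tail v)
    have h2 := h (-Fin.tail v)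
    have h3 := h 0
    rw [cons_one_eq, qf_add] at h1 h2 h3
    rw [hneg, qf_smul, pf_smul_right] at h2
    have h0 : (Fin.cons 0 (0 : Fin 3 → K) : Fin 4 → K) = 0 := by
      funext i
      refine Fin.cases ?_ (fun i => ?_) i
      · simp
      · simp
    rw [h0, qf_zero, pf_zero_right] at h3
    rw [hv']
    have : 2 * qf M (Fin.cons 0 (Fin.tail v) : Fin 4 → K) = 0 := by
      linear_combination h1 + h2 - 2 * h3
    exact (mul_eq_zero.mp this).resolve_left two_ne_zero
  · have hv' : v = v 0 • (Fin.cons 1 (fun i => v i.succ / v 0) : Fin 4 → K) := by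
      funext i
      refine Fin.cases ?_ (fun i => ?_) i
      · simp
      · simp
        field_simp
    rw [hv', qf_smul, h, mul_zero]

/-- A smooth cubic contains no linear space of dimension three of this kind. -/
lemma not_vanish (B : Fin 3 → Matrix (Fin 6) (Fin 6) ℂ) (hs : SmoothForm (cubic B))
    (s : Fin 2 → ℂ) :
    ¬ ∀ y : Fin 3 → ℂ, net B ![1, s 0, s 1] (wvec ![1, s 0, s 1] (Fin.cons 1 y)) = 0 := by
  intro h
  set t : Fin 3 → ℂ := ![1, s 0, s 1] with ht
  have ht0 : t 0 = 1 := rfl
  have ht1 : t 1 = s 0 := rfl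
  have ht2 : t 2 = s 1 := rfl
  have hq : ∀ v : Fin 4 → ℂ, net B t (wvec t v) = qf (pull B t (wmat t)) v := by
    intro v
    rw [qf_pull, act_wmat]
    simp
  have hall : ∀ v : Fin 4 → ℂ, net B t (wvec t v) = 0 := by
    intro v
    rw [hq]
    apply qf_eq_zero_of_cons
    intro y
    rw [← hq]
    exact h y
  have hpol : ∀ v w : Fin 4 → ℂ, netp B t (wvec t v) (wvec t w) = 0 := by
    intro v w
    rw [netp_eq_sub, ← wvec_add, hall, hall, hall]
    ring
  have h46 : 4 < 6 := by norm_num
  have haev : ∀ (i : Fin 6), aeval (0 : Fin 6 → ℂ) (pderiv i (cubic B)) = 0 := by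
    intro i
    rw [aeval_pderiv_cubic]
    refine Finset.sum_eq_zero fun k _ => ?_
    rw [qf_zero]
    simp
  obtain ⟨z, hz0, hz⟩ := exists_common_zero (k := ℂ) h46
    ![X 1 - C (s 0) * X 0, X 2 - C (s 1) * X 0, pderiv 1 (cubic B), pderiv 2 (cubic B)] (by
      intro i
      fin_cases i
      · simp
      · simp
      · exact haev 1
      · exact haev 2)
  have z1 : z 1 = s 0 * z 0 := by
    have := hz 0
    simp at this
    linear_combination this
  have z2 : z 2 = s 1 * z 0 := by
    have := hz 1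
    simp at this
    linear_combination this
  have z3 : aeval z (pderiv 1 (cubic B)) = 0 := hz 2
  have z4 : aeval z (pderiv 2 (cubic B)) = 0 := hz 3
  have hzw : z = wvec t ![z 0, z 3, z 4, z 5] := by
    funext i
    fin_cases i
    · simp [wvec, ht0]
    · simp [wvec, ht1, z1, mul_comm]
    · simp [wvec, ht2, z2, mul_comm]
    · simp [wvec]
    · simp [wvec]
    · simp [wvec]
  apply hz0
  apply hs
  intro i
  rw [hzw] at z3 z4 ⊢
  exact all_partials B t ht0 _ (hall _) (fun i => hpol _ _) z3 z4 i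

/-- Two linear forms in four variables have a common zero. -/
lemma exists_ker {K : Type*} [Field K] (g h : Fin 4 → K) :
    ∃ v : Fin 4 → K, v ≠ 0 ∧ ∑ i, g i * v i = 0 ∧ ∑ i, h i * v i = 0 := by
  let M : Matrix (Fin 2) (Fin 4) K := ![g, h]
  have hk : LinearMap.ker M.mulVecLin ≠ ⊥ := LinearMap.ker_ne_bot_of_finrank_lt (by simp)
  obtain ⟨v, hv, hv0⟩ := (Submodule.ne_bot_iff _).mp hk
  rw [LinearMap.mem_ker] at hv
  exact ⟨v, hv0, congrFun hv 0, congrFun hv 1⟩

/-- The nondegenerate quadric is not a product of two affine polynomials. -/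
lemma not_product (q : Matrix (Fin 4) (Fin 4) RatK)
    (nd : ∀ v : Fin 4 → RatK, (∀ w, pf q v w = 0) → v = 0) (g h : MvPolynomial (Fin 3) RatK)
    (hg : g.totalDegree ≤ 1) (hh : h.totalDegree ≤ 1) : fK q ≠ g * h := by
  intro heq
  have : CharZero RatK := charZero_of_injective_algebraMap (algebraMap ℂ RatK).injective
  obtain ⟨g0, g1, hg1⟩ := eval_affine g hg
  obtain ⟨h0, h1, hh1⟩ := eval_affine h hh
  set G : Fin 4 → RatK := Fin.cons g0 g1 with hG
  set H : Fin 4 → RatK := Fin.cons h0 h1 with hH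
  set M : Matrix (Fin 4) (Fin 4) RatK := fun i j => q i j - G i * H j with hM
  have hMq : ∀ v : Fin 4 → RatK, qf M v = qf q v - (∑ i, G i * v i) * (∑ i, H i * v i) := by
    intro v
    simp only [qf, hM, Algebra.algebraMap_self, RingHom.id_apply]
    rw [Finset.sum_mul_sum, ← Finset.sum_sub_distrib]
    refine Finset.sum_congr rfl fun i _ => ?_
    rw [← Finset.sum_sub_distrib]
    refine Finset.sum_congr rfl fun j _ => ?_
    ring
  have hM0 : ∀ v : Fin 4 → RatK, qf M v = 0 := by
    apply qf_eq_zero_of_cons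
    intro y
    rw [hMq]
    have e := congrArg (aeval (R := RatK) y) heq
    rw [aeval_fK, map_mul, hg1, hh1] at e
    have sG : ∑ i, G i * (Fin.cons 1 y : Fin 4 → RatK) i = g0 + ∑ i, g1 i * y i := by
      rw [Fin.sum_univ_succ]
      simp [hG]
    have sH : ∑ i, H i * (Fin.cons 1 y : Fin 4 → RatK) i = h0 + ∑ i, h1 i * y i := by
      rw [Fin.sum_univ_succ]
      simp [hH]
    rw [e, sG, sH, sub_self]
  obtain ⟨v, hv0, hv1, hv2⟩ := exists_ker G H
  apply hv0
  apply nd
  intro w
  have e1 := hM0 (v + w)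
  have e2 := hM0 v
  have e3 := hM0 w
  rw [hMq] at e1 e2 e3
  have s1 : ∑ i, G i * (v + w) i = ∑ i, G i * w i := by
    simp only [Pi.add_apply, mul_add, Finset.sum_add_distrib, hv1, zero_add]
  have s2 : ∑ i, H i * (v + w) i = ∑ i, H i * w i := by
    simp only [Pi.add_apply, mul_add, Finset.sum_add_distrib, hv2, zero_add]
  rw [s1, s2] at e1
  rw [hv1, hv2] at e2
  rw [pf_eq_sub]
  linear_combination e1 - e2 - e3

/-- The isomorphism-like map to polynomials over polynomials. -/
noncomputable def sig : MvPolynomial (Fin 5) ℂ →ₐ[ℂ] MvPolynomial (Fin 3) (MvPolynomial (Fin 2) ℂ) :=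
  aeval ![C (X 0), C (X 1), X 0, X 1, X 2]

/-- Its inverse. -/
noncomputable def tau : MvPolynomial (Fin 3) (MvPolynomial (Fin 2) ℂ) →+* MvPolynomial (Fin 5) ℂ :=
  eval₂Hom ren.toRingHom (fun i => X (Fin.natAdd 2 i))

lemma tau_sig (g : MvPolynomial (Fin 5) ℂ) : tau (sig g) = g := by
  induction g using MvPolynomial.induction_on with
  | C a =>
    have : sig (C a) = C (C a) := by
      rw [← MvPolynomial.algebraMap_eq, sig.commutes]
      rfl
    rw [this, tau, coe_eval₂Hom, eval₂_C]
    change ren (C a) = C a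
    rw [← MvPolynomial.algebraMap_eq]
    exact ren.commutes a
  | add p q hp hq => rw [map_add, map_add, hp, hq]
  | mul_X p i hp =>
    have hX : tau (sig (X i)) = X i := by
      fin_cases i
      · simp [sig, tau, ren]
      · simp [sig, tau, ren]
      · simp [sig, tau]
      · simp [sig, tau]
      · simp [sig, tau]
    rw [map_mul, map_mul, hp, hX]

lemma rho_eq (g : MvPolynomial (Fin 5) ℂ) :
    rho g = MvPolynomial.map (algebraMap (MvPolynomial (Fin 2) ℂ) RatK) (sig g) := by
  induction g using MvPolynomial.induction_on with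
  | C a =>
    have : sig (C a) = C (C a) := by
      rw [← MvPolynomial.algebraMap_eq, sig.commutes]
      rfl
    rw [this, map_C]
    rw [← MvPolynomial.algebraMap_eq (R := ℂ), rho.commutes, MvPolynomial.algebraMap_apply,
      IsScalarTower.algebraMap_apply ℂ (MvPolynomial (Fin 2) ℂ) RatK]
    rfl
  | add p q hp hq => rw [map_add, map_add, map_add, hp, hq]
  | mul_X p i hp =>
    have hX : rho (X i) =
        MvPolynomial.map (algebraMap (MvPolynomial (Fin 2) ℂ) RatK) (sig (X i)) := by
      fin_cases i <;> simp [sig, rho, tvec]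
    rw [map_mul, map_mul, map_mul, hp, hX]

lemma rho_injective : Function.Injective rho := by
  intro a b hab
  rw [rho_eq, rho_eq] at hab
  have := map_injective _ (IsFractionRing.injective (MvPolynomial (Fin 2) ℂ) RatK) hab
  rw [← tau_sig a, ← tau_sig b, this]

/-- A polynomial whose image is constant is a polynomial in the first two variables. -/
lemma eq_ren_of_totalDegree (g : MvPolynomial (Fin 5) ℂ) (h : (rho g).totalDegree = 0) :
    ∃ n, g = ren n := by
  rw [totalDegree_eq_zero_iff_eq_C] at h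
  refine ⟨coeff 0 (sig g), ?_⟩
  have h1 : sig g = C (coeff 0 (sig g)) := by
    apply map_injective _ (IsFractionRing.injective (MvPolynomial (Fin 2) ℂ) RatK)
    rw [← rho_eq, h, map_C, rho_eq, coeff_map]
  have h2 := tau_sig g
  rw [h1, tau, coe_eval₂Hom, eval₂_C] at h2
  exact h2.symm

lemma isUnit_of_forall_aeval_ne_zero (n : MvPolynomial (Fin 2) ℂ)
    (h : ∀ s : Fin 2 → ℂ, aeval s n ≠ 0) : IsUnit n := by
  by_contra hn
  obtain ⟨M, hM, hnM⟩ := exists_max_ideal_of_mem_nonunits hn
  obtain ⟨s, rfl⟩ := (isMaximal_iff_eq_vanishingIdeal_singleton (K := ℂ)).mp hM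
  exact h s ((mem_vanishingIdeal_singleton_iff s n).mp hnM)

lemma aeval_chart_cubic (B : Fin 3 → Matrix (Fin 6) (Fin 6) ℂ) (s : Fin 2 → ℂ) (y : Fin 3 → ℂ) :
    aeval ![s 0, s 1, y 0, y 1, y 2] (chart (cubic B)) =
      net B ![1, s 0, s 1] (wvec ![1, s 0, s 1] (Fin.cons 1 y)) := by
  have h1 : aeval ![s 0, s 1, y 0, y 1, y 2] (chart (cubic B)) =
      aeval (wvec ![1, s 0, s 1] (Fin.cons 1 y)) (cubic B) := by
    rw [chart]
    have : (aeval (R := ℂ) ![s 0, s 1, y 0, y 1, y 2]).comp
        (aeval (Fin.cons 1 X : Fin 6 → MvPolynomial (Fin 5) ℂ)) =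
        aeval (wvec ![1, s 0, s 1] (Fin.cons 1 y)) := by
      apply MvPolynomial.algHom_ext
      intro i
      have c2 : (Fin.cons 1 X : Fin 6 → MvPolynomial (Fin 5) ℂ) 2 = X 1 := rfl
      have c3 : (Fin.cons 1 X : Fin 6 → MvPolynomial (Fin 5) ℂ) 3 = X 2 := rfl
      have c4 : (Fin.cons 1 X : Fin 6 → MvPolynomial (Fin 5) ℂ) 4 = X 3 := rfl
      have c5 : (Fin.cons 1 X : Fin 6 → MvPolynomial (Fin 5) ℂ) 5 = X 4 := rfl
      have d2 : (Fin.cons 1 y : Fin 4 → ℂ) 2 = y 1 := rfl
      have d3 : (Fin.cons 1 y : Fin 4 → ℂ) 3 = y 2 := rfl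
      fin_cases i
      · simp [wvec]
      · simp [wvec]
      · simp [wvec, c2]
      · simp [wvec, c3]
      · simp [wvec, c4, d2]
      · simp [wvec, c5, d3]
    exact DFunLike.congr_fun this (cubic B)
  rw [h1, aeval_cubic_wvec]
  simp

lemma isUnit_of_totalDegree_eq_zero (B : Fin 3 → Matrix (Fin 6) (Fin 6) ℂ)
    (hs : SmoothForm (cubic B)) (g h : MvPolynomial (Fin 5) ℂ) (heq : chart (cubic B) = g * h)
    (hg : (rho g).totalDegree = 0) : IsUnit g := by
  obtain ⟨n, rfl⟩ := eq_ren_of_totalDegree g hg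
  suffices IsUnit n from this.map ren
  apply isUnit_of_forall_aeval_ne_zero
  intro s hsn
  apply not_vanish B hs s
  intro y
  rw [← aeval_chart_cubic, heq, map_mul]
  have : aeval ![s 0, s 1, y 0, y 1, y 2] (ren n) = aeval s n := by
    have : (aeval (R := ℂ) ![s 0, s 1, y 0, y 1, y 2]).comp ren = aeval s := by
      apply MvPolynomial.algHom_ext
      intro i
      fin_cases i <;> simp [ren]
    exact DFunLike.congr_fun this n
  rw [this, hsn, zero_mul]

theorem prime_of_smooth (B : Fin 3 → Matrix (Fin 6) (Fin 6) ℂ)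
    (hs : SmoothForm (cubic B)) : Prime (chart (cubic B)) := by
  have nd := nondegenerate_of_smooth B hs
  have h2 := two_le_totalDegree_fK (qmat B) nd
  have h2' : (fK (qmat B)).totalDegree ≤ 2 :=
    totalDegree_qf_le (qmat B) _ totalDegree_cons_one
  have hf0 : fK (qmat B) ≠ 0 := by
    intro h
    rw [h] at h2
    simp at h2
  refine Irreducible.prime ⟨?_, ?_⟩
  · intro hu
    have := hu.map rho
    rw [rho_chart] at this
    obtain ⟨g, hg⟩ := this.exists_right_inv
    have hg0 : g ≠ 0 := by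
      rintro rfl
      simp at hg
    have h3 := congrArg totalDegree hg
    rw [totalDegree_mul_of_isDomain hf0 hg0, totalDegree_one] at h3
    omega
  · intro g h heq
    have heq' : fK (qmat B) = rho g * rho h := by
      rw [← rho_chart, heq, map_mul]
    have hg0 : rho g ≠ 0 := by
      intro h0
      rw [h0, zero_mul] at heq'
      exact hf0 heq'
    have hh0 : rho h ≠ 0 := by
      intro h0
      rw [h0, mul_zero] at heq'
      exact hf0 heq'
    have h3 := congrArg totalDegree heq'
    rw [totalDegree_mul_of_isDomain hg0 hh0] at h3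
    by_cases hg : (rho g).totalDegree = 0
    · exact Or.inl (isUnit_of_totalDegree_eq_zero B hs g h heq hg)
    by_cases hh : (rho h).totalDegree = 0
    · exact Or.inr (isUnit_of_totalDegree_eq_zero B hs h g (by rw [heq, mul_comm]) hh)
    exact absurd heq' (not_product (qmat B) nd _ _ (by omega) (by omega))

end Vale.Agent.P287
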