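import Vale.Agent.P287.NonDegenerate

/-!
The function field of a cubic fourfold containing a plane, as function field of a quadric surface
over `ℂ(s₀, s₁)`.
-/

namespace Vale.Agent.P287

open MvPolynomial

/-- The rational function field `ℂ(s₀, s₁)`. -/
abbrev RatK : Type := FractionRing (MvPolynomial (Fin 2) ℂ)

/-- The generic point `(1 : s₀ : s₁)` of the plane. -/
noncomputable def tvec : Fin 3 → RatK :=
  ![1, algebraMap (MvPolynomial (Fin 2) ℂ) RatK (X 0), algebraMap (MvPolynomial (Fin 2) ℂ) RatK (X 1)]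

/-- The vector `(v₀ t₀, v₀ t₁, v₀ t₂, v₁, v₂, v₃)`. -/
def wvec {A : Type*} [CommRing A] (t : Fin 3 → A) (v : Fin 4 → A) : Fin 6 → A :=
  ![v 0 * t 0, v 0 * t 1, v 0 * t 2, v 1, v 2, v 3]

/-- The cubic form `∑ X k * G k` with `G k` the quadratic form with matrix `B k`. -/
noncomputable def cubic (B : Fin 3 → Matrix (Fin 6) (Fin 6) ℂ) : MvPolynomial (Fin 6) ℂ :=
  ∑ k : Fin 3, X (Fin.castAdd 3 k) * qf (B k) (X : Fin 6 → MvPolynomial (Fin 6) ℂ)

lemma aeval_cubic (B : Fin 3 → Matrix (Fin 6) (Fin 6) ℂ) {A : Type*} [CommRing A] [Algebra ℂ A]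
    (z : Fin 6 → A) :
    aeval z (cubic B) = ∑ k : Fin 3, z (Fin.castAdd 3 k) * qf (B k) z := by
  simp [cubic, map_sum, map_qf]

lemma aeval_cubic_wvec (B : Fin 3 → Matrix (Fin 6) (Fin 6) ℂ) {A : Type*} [CommRing A]
    [Algebra ℂ A] (t : Fin 3 → A) (v : Fin 4 → A) :
    aeval (wvec t v) (cubic B) = v 0 * net B t (wvec t v) := by
  rw [aeval_cubic, net, Finset.mul_sum]
  refine Finset.sum_congr rfl fun k _ => ?_
  have : wvec t v (Fin.castAdd 3 k) = v 0 * t k := by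
    fin_cases k <;> rfl
  rw [this]
  ring

/-- The affine equation of the hypersurface `F = 0` in the chart `x₀ = 1`. -/
noncomputable def chart (F : MvPolynomial (Fin 6) ℂ) : MvPolynomial (Fin 5) ℂ :=
  aeval (Fin.cons 1 X : Fin 6 → MvPolynomial (Fin 5) ℂ) F

/-- The matrix over `K` with `qf (pull Q t P) v = net Q t (P v)`. -/
noncomputable def pull {K : Type*} [Field K] [Algebra ℂ K] (Q : Fin 3 → Matrix (Fin 6) (Fin 6) ℂ)
    (t : Fin 3 → K) (P : Matrix (Fin 6) (Fin 4) K) : Matrix (Fin 4) (Fin 4) K :=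
  fun i j => ∑ k, t k * ∑ a, ∑ b, algebraMap ℂ K (Q k a b) * (P a i * P b j)

lemma qf_pull {K A : Type*} [Field K] [Algebra ℂ K] [CommRing A] [Algebra ℂ A] [Algebra K A]
    [IsScalarTower ℂ K A] (Q : Fin 3 → Matrix (Fin 6) (Fin 6) ℂ)
    (t : Fin 3 → K) (P : Matrix (Fin 6) (Fin 4) K) (v : Fin 4 → A) :
    qf (pull Q t P) v = net Q (fun k => algebraMap K A (t k)) (act P v) := by
  simp only [qf, pull, net, act, map_sum, map_mul, Finset.sum_mul, Finset.mul_sum,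
    ← IsScalarTower.algebraMap_apply ℂ K A]
  -- LHS : ∑ i, ∑ j, ∑ k, ∑ a, ∑ b ; RHS : ∑ k, ∑ a, ∑ b, ∑ i, ∑ j
  have h1 : ∀ g : Fin 4 → Fin 4 → Fin 3 → Fin 6 → Fin 6 → A,
      ∑ i, ∑ j, ∑ k, ∑ a, ∑ b, g i j k a b = ∑ k, ∑ a, ∑ b, ∑ i, ∑ j, g i j k a b := by
    intro g
    calc ∑ i, ∑ j, ∑ k, ∑ a, ∑ b, g i j k a b
        = ∑ i, ∑ k, ∑ j, ∑ a, ∑ b, g i j k a b := by
          refine Finset.sum_congr rfl fun i _ => Finset.sum_comm
      _ = ∑ k, ∑ i, ∑ j, ∑ a, ∑ b, g i j k a b := Finset.sum_comm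
      _ = ∑ k, ∑ i, ∑ a, ∑ j, ∑ b, g i j k a b := by
          refine Finset.sum_congr rfl fun k _ => Finset.sum_congr rfl fun i _ => Finset.sum_comm
      _ = ∑ k, ∑ a, ∑ i, ∑ j, ∑ b, g i j k a b := by
          refine Finset.sum_congr rfl fun k _ => Finset.sum_comm
      _ = ∑ k, ∑ a, ∑ i, ∑ b, ∑ j, g i j k a b := by
          refine Finset.sum_congr rfl fun k _ => Finset.sum_congr rfl fun a _ =>
            Finset.sum_congr rfl fun i _ => Finset.sum_comm
      _ = ∑ k, ∑ a, ∑ b, ∑ i, ∑ j, g i j k a b := by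
          refine Finset.sum_congr rfl fun k _ => Finset.sum_congr rfl fun a _ => Finset.sum_comm
  rw [h1]
  refine Finset.sum_congr rfl fun k _ => Finset.sum_congr rfl fun a _ =>
    Finset.sum_congr rfl fun b _ => ?_
  rw [Finset.sum_comm]
  refine Finset.sum_congr rfl fun i _ => Finset.sum_congr rfl fun j _ => ?_
  ring

/-- The matrix of `v ↦ wvec t v`. -/
def wmat {K : Type*} [Field K] (t : Fin 3 → K) : Matrix (Fin 6) (Fin 4) K :=
  ![![t 0, 0, 0, 0], ![t 1, 0, 0, 0], ![t 2, 0, 0, 0], ![0, 1, 0, 0], ![0, 0, 1, 0], ![0, 0, 0, 1]]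

lemma act_wmat {K A : Type*} [Field K] [CommRing A] [Algebra K A] (t : Fin 3 → K) (v : Fin 4 → A) :
    act (wmat t) v = wvec (fun k => algebraMap K A (t k)) v := by
  funext i
  fin_cases i <;> simp [act, wmat, wvec, Fin.sum_univ_four, mul_comm]

/-- The matrix of the quadric surface over `ℂ(s₀, s₁)` defined by the cubic form `cubic B`. -/
noncomputable def qmat (B : Fin 3 → Matrix (Fin 6) (Fin 6) ℂ) : Matrix (Fin 4) (Fin 4) RatK :=
  pull B tvec (wmat tvec)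

lemma qf_qmat (B : Fin 3 → Matrix (Fin 6) (Fin 6) ℂ) {A : Type*} [CommRing A] [Algebra ℂ A]
    [Algebra RatK A] [IsScalarTower ℂ RatK A] (v : Fin 4 → A) :
    qf (qmat B) v = net B (fun k => algebraMap RatK A (tvec k))
      (wvec (fun k => algebraMap RatK A (tvec k)) v) := by
  rw [qmat, qf_pull, act_wmat]

/-- The substitution `ℂ[x₁, …, x₅] → ℂ(s₀, s₁)[y₀, y₁, y₂]`. -/
noncomputable def rho : MvPolynomial (Fin 5) ℂ →ₐ[ℂ] MvPolynomial (Fin 3) RatK :=
  aeval ![C (tvec 1), C (tvec 2), X 0, X 1, X 2]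

lemma rho_chart (B : Fin 3 → Matrix (Fin 6) (Fin 6) ℂ) : rho (chart (cubic B)) = fK (qmat B) := by
  have h1 : rho (chart (cubic B)) = aeval (wvec (fun k => algebraMap RatK _ (tvec k))
      (Fin.cons 1 X : Fin 4 → MvPolynomial (Fin 3) RatK)) (cubic B) := by
    rw [chart]
    have : rho.comp (aeval (Fin.cons 1 X : Fin 6 → MvPolynomial (Fin 5) ℂ)) =
        aeval (wvec (fun k => algebraMap RatK _ (tvec k))
          (Fin.cons 1 X : Fin 4 → MvPolynomial (Fin 3) RatK)) := by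
      apply MvPolynomial.algHom_ext
      intro i
      have c2 : (Fin.cons 1 X : Fin 6 → MvPolynomial (Fin 5) ℂ) 2 = X 1 := rfl
      have c3 : (Fin.cons 1 X : Fin 6 → MvPolynomial (Fin 5) ℂ) 3 = X 2 := rfl
      have c4 : (Fin.cons 1 X : Fin 6 → MvPolynomial (Fin 5) ℂ) 4 = X 3 := rfl
      have c5 : (Fin.cons 1 X : Fin 6 → MvPolynomial (Fin 5) ℂ) 5 = X 4 := rfl
      have d2 : (Fin.cons 1 X : Fin 4 → MvPolynomial (Fin 3) RatK) 2 = X 1 := rfl
      have d3 : (Fin.cons 1 X : Fin 4 → MvPolynomial (Fin 3) RatK) 3 = X 2 := rfl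
      fin_cases i
      · simp [wvec, tvec, rho]
      · simp [wvec, rho, MvPolynomial.algebraMap_eq]
      · simp [wvec, rho, MvPolynomial.algebraMap_eq, c2]
      · simp [wvec, rho, c3]
      · simp [wvec, rho, c4, d2]
      · simp [wvec, rho, c5, d3]
    exact DFunLike.congr_fun this (cubic B)
  rw [h1, aeval_cubic_wvec, fK, qf_qmat]
  simp

/-- Substitution of polynomials in `s₀, s₁` into `ℂ[x₁, …, x₅]`. -/
noncomputable def ren : MvPolynomial (Fin 2) ℂ →ₐ[ℂ] MvPolynomial (Fin 5) ℂ :=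
  aeval ![X 0, X 1]

lemma rho_ren (n : MvPolynomial (Fin 2) ℂ) :
    rho (ren n) = C (algebraMap (MvPolynomial (Fin 2) ℂ) RatK n) := by
  have : rho.comp ren = (IsScalarTower.toAlgHom ℂ RatK (MvPolynomial (Fin 3) RatK)).comp
      (IsScalarTower.toAlgHom ℂ (MvPolynomial (Fin 2) ℂ) RatK) := by
    ext i
    fin_cases i
    · simp [rho, ren, tvec, MvPolynomial.algebraMap_eq]
    · simp [rho, ren, tvec, MvPolynomial.algebraMap_eq]
  exact DFunLike.congr_fun this n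

/-- Denominators can be cleared. -/
lemma exists_rho (G : MvPolynomial (Fin 3) RatK) :
    ∃ (g : MvPolynomial (Fin 5) ℂ) (d : MvPolynomial (Fin 2) ℂ), d ≠ 0 ∧
      rho g = C (algebraMap (MvPolynomial (Fin 2) ℂ) RatK d) * G := by
  induction G using MvPolynomial.induction_on with
  | C c =>
    obtain ⟨n, d, hd, rfl⟩ := IsFractionRing.div_surjective (A := MvPolynomial (Fin 2) ℂ) c
    have hd0 : d ≠ 0 := nonZeroDivisors.ne_zero hd
    refine ⟨ren n, d, hd0, ?_⟩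
    rw [rho_ren, ← C_mul]
    congr 1
    have : algebraMap (MvPolynomial (Fin 2) ℂ) RatK d ≠ 0 := by
      simpa using hd0
    field_simp
  | add p q hp hq =>
    obtain ⟨g1, d1, hd1, h1⟩ := hp
    obtain ⟨g2, d2, hd2, h2⟩ := hq
    refine ⟨ren d2 * g1 + ren d1 * g2, d1 * d2, mul_ne_zero hd1 hd2, ?_⟩
    rw [map_add, map_mul, map_mul, h1, h2, rho_ren, rho_ren, map_mul, C_mul]
    ring
  | mul_X p i hp =>
    obtain ⟨g, d, hd, h⟩ := hp
    refine ⟨g * X (Fin.natAdd 2 i), d, hd, ?_⟩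
    have hX : rho (X (Fin.natAdd 2 i)) = X i := by
      fin_cases i <;> simp [rho]
    rw [map_mul, h, hX]
    ring

end Vale.Agent.P287
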