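import Mathlib

/-!
Quadratic forms given by (not necessarily symmetric) matrices, evaluated in algebras over the
ring of coefficients.
-/

namespace Vale.Agent.P287

open MvPolynomial

section

variable {k A A' : Type*} [CommRing k] [CommRing A] [Algebra k A] [CommRing A'] [Algebra k A']
variable {n m : ℕ}

/-- The value `∑ Q i j * w i * w j` of the quadratic form with matrix `Q`. -/
noncomputable def qf (Q : Matrix (Fin n) (Fin n) k) (w : Fin n → A) : A :=
  ∑ i, ∑ j, algebraMap k A (Q i j) * (w i * w j)

/-- The polar form of `qf Q`. -/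
noncomputable def pf (Q : Matrix (Fin n) (Fin n) k) (u w : Fin n → A) : A :=
  ∑ i, ∑ j, algebraMap k A (Q i j) * (u i * w j + w i * u j)

/-- Matrix times vector, with entries of the vector in an algebra. -/
noncomputable def act (P : Matrix (Fin m) (Fin n) k) (u : Fin n → A) : Fin m → A :=
  fun i => ∑ j, algebraMap k A (P i j) * u j

lemma qf_add (Q : Matrix (Fin n) (Fin n) k) (u w : Fin n → A) :
    qf Q (u + w) = qf Q u + qf Q w + pf Q u w := by
  simp only [qf, pf, ← Finset.sum_add_distrib, Pi.add_apply]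
  refine Finset.sum_congr rfl fun i _ => Finset.sum_congr rfl fun j _ => ?_
  ring

lemma qf_smul (Q : Matrix (Fin n) (Fin n) k) (c : A) (w : Fin n → A) :
    qf Q (c • w) = c ^ 2 * qf Q w := by
  simp only [qf, Finset.mul_sum, Pi.smul_apply, smul_eq_mul]
  refine Finset.sum_congr rfl fun i _ => Finset.sum_congr rfl fun j _ => ?_
  ring

lemma pf_add_right (Q : Matrix (Fin n) (Fin n) k) (u w w' : Fin n → A) :
    pf Q u (w + w') = pf Q u w + pf Q u w' := by
  simp only [pf, ← Finset.sum_add_distrib, Pi.add_apply]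
  refine Finset.sum_congr rfl fun i _ => Finset.sum_congr rfl fun j _ => ?_
  ring

lemma pf_smul_right (Q : Matrix (Fin n) (Fin n) k) (c : A) (u w : Fin n → A) :
    pf Q u (c • w) = c * pf Q u w := by
  simp only [pf, Finset.mul_sum, Pi.smul_apply, smul_eq_mul]
  refine Finset.sum_congr rfl fun i _ => Finset.sum_congr rfl fun j _ => ?_
  ring

lemma pf_comm (Q : Matrix (Fin n) (Fin n) k) (u w : Fin n → A) :
    pf Q u w = pf Q w u := by
  simp only [pf]
  refine Finset.sum_congr rfl fun i _ => Finset.sum_congr rfl fun j _ => ?_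
  ring

lemma pf_add_left (Q : Matrix (Fin n) (Fin n) k) (u u' w : Fin n → A) :
    pf Q (u + u') w = pf Q u w + pf Q u' w := by
  rw [pf_comm, pf_add_right, pf_comm Q w u, pf_comm Q w u']

lemma pf_smul_left (Q : Matrix (Fin n) (Fin n) k) (c : A) (u w : Fin n → A) :
    pf Q (c • u) w = c * pf Q u w := by
  rw [pf_comm, pf_smul_right, pf_comm]

lemma pf_self (Q : Matrix (Fin n) (Fin n) k) (w : Fin n → A) :
    pf Q w w = 2 * qf Q w := by
  simp only [qf, pf, Finset.mul_sum]
  refine Finset.sum_congr rfl fun i _ => Finset.sum_congr rfl fun j _ => ?_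
  ring

lemma pf_zero_right (Q : Matrix (Fin n) (Fin n) k) (u : Fin n → A) :
    pf Q u 0 = 0 := by
  simp [pf]

lemma qf_zero (Q : Matrix (Fin n) (Fin n) k) : qf Q (0 : Fin n → A) = 0 := by
  simp [qf]

lemma map_qf (f : A →ₐ[k] A') (Q : Matrix (Fin n) (Fin n) k) (w : Fin n → A) :
    f (qf Q w) = qf Q (fun i => f (w i)) := by
  simp [qf, map_sum]

lemma map_pf (f : A →ₐ[k] A') (Q : Matrix (Fin n) (Fin n) k) (u w : Fin n → A) :
    f (pf Q u w) = pf Q (fun i => f (u i)) (fun i => f (w i)) := by
  simp [pf, map_sum]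

lemma map_act (f : A →ₐ[k] A') (P : Matrix (Fin m) (Fin n) k) (u : Fin n → A) :
    (fun i => f (act P u i)) = act P (fun i => f (u i)) := by
  funext i
  simp [act, map_sum]

lemma act_add (P : Matrix (Fin m) (Fin n) k) (u w : Fin n → A) :
    act P (u + w) = act P u + act P w := by
  funext i
  simp only [act, Pi.add_apply, ← Finset.sum_add_distrib]
  refine Finset.sum_congr rfl fun j _ => ?_
  ring

lemma act_smul (P : Matrix (Fin m) (Fin n) k) (c : A) (u : Fin n → A) :
    act P (c • u) = c • act P u := by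
  funext i
  simp only [act, Pi.smul_apply, smul_eq_mul, Finset.mul_sum]
  refine Finset.sum_congr rfl fun j _ => ?_
  ring

lemma act_self (P : Matrix (Fin m) (Fin n) k) (u : Fin n → k) : act P u = P.mulVec u := by
  funext i
  simp [act, Matrix.mulVec, dotProduct]

lemma act_mul {l : ℕ} (P : Matrix (Fin m) (Fin n) k) (P' : Matrix (Fin n) (Fin l) k)
    (u : Fin l → A) : act (P * P') u = act P (act P' u) := by
  funext i
  simp only [act, Matrix.mul_apply, map_sum, map_mul, Finset.sum_mul, Finset.mul_sum]
  rw [Finset.sum_comm]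
  refine Finset.sum_congr rfl fun j _ => Finset.sum_congr rfl fun j' _ => ?_
  ring

lemma act_one (u : Fin n → A) : act (1 : Matrix (Fin n) (Fin n) k) u = u := by
  funext i
  simp only [act, Matrix.one_apply]
  rw [Finset.sum_eq_single i]
  · simp
  · intro j _ hj
    rw [if_neg (Ne.symm hj)]
    simp
  · simp

end


/-- `pf Q u` as a linear functional. -/
noncomputable def pfL {k A : Type*} [CommRing k] [CommRing A] [Algebra k A] {n : ℕ}
    (Q : Matrix (Fin n) (Fin n) k) (u : Fin n → A) : (Fin n → A) →ₗ[A] A where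
  toFun := pf Q u
  map_add' := pf_add_right Q u
  map_smul' c w := by simp [pf_smul_right]

lemma pf_eq_sum {k A : Type*} [CommRing k] [CommRing A] [Algebra k A] {n : ℕ}
    (Q : Matrix (Fin n) (Fin n) k) (u w : Fin n → A) :
    pf Q u w = ∑ i, pf Q u (Pi.single i 1) * w i := by
  have h := (pfL Q u).pi_apply_eq_sum_univ w
  change pf Q u w = _ at h
  rw [h]
  refine Finset.sum_congr rfl fun i _ => ?_
  rw [smul_eq_mul, mul_comm]
  congr 1
  change pf Q u _ = _
  congr 1
  funext j
  simp [Pi.single_apply, eq_comm]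

section tower

variable {k K A : Type*} [CommRing k] [CommRing K] [Algebra k K] [CommRing A] [Algebra k A]
  [Algebra K A] [IsScalarTower k K A] {n : ℕ}

lemma qf_algebraMap (Q : Matrix (Fin n) (Fin n) k) (w : Fin n → K) :
    qf Q (fun i => algebraMap K A (w i)) = algebraMap K A (qf Q w) := by
  have := map_qf (IsScalarTower.toAlgHom k K A) Q w
  simpa using this.symm

lemma pf_algebraMap (Q : Matrix (Fin n) (Fin n) k) (u w : Fin n → K) :
    pf Q (fun i => algebraMap K A (u i)) (fun i => algebraMap K A (w i)) =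
      algebraMap K A (pf Q u w) := by
  have := map_pf (IsScalarTower.toAlgHom k K A) Q u w
  simpa using this.symm

lemma pf_algebraMap_left {k : Type*} [CommRing k] {A : Type*} [CommRing A] [Algebra k A] {n : ℕ}
    (Q : Matrix (Fin n) (Fin n) k) (v : Fin n → k) (w : Fin n → A) :
    pf Q (fun i => algebraMap k A (v i)) w = ∑ i, algebraMap k A (pf Q v (Pi.single i 1)) * w i := by
  rw [pf_eq_sum]
  refine Finset.sum_congr rfl fun i _ => ?_
  congr 1
  rw [← pf_algebraMap]
  congr 1
  funext j
  by_cases h : j = i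
  · subst h; simp
  · simp [Pi.single_eq_of_ne h]

end tower

section poly

variable {K A : Type*} [Field K] [Infinite K] [CommRing A] [Algebra K A] {n : ℕ}

/-- A polynomial vanishing at all points over an infinite field vanishes in every algebra. -/
lemma aeval_eq_zero_of_forall (D : MvPolynomial (Fin n) K) (h : ∀ u : Fin n → K, aeval u D = 0)
    (w : Fin n → A) : aeval w D = 0 := by
  have : D = 0 := by
    apply MvPolynomial.funext
    intro u
    have := h u
    rw [MvPolynomial.aeval_eq_eval] at this
    simpa using this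
  rw [this, map_zero]

end poly

section mem

variable {k E : Type*} [Field k] [Field E] [Algebra k E] {n m : ℕ}

lemma qf_mem (F : IntermediateField k E) (Q : Matrix (Fin n) (Fin n) k) {w : Fin n → E}
    (hw : ∀ i, w i ∈ F) : qf Q w ∈ F := by
  refine F.sum_mem fun i _ => F.sum_mem fun j _ => ?_
  exact F.mul_mem (F.algebraMap_mem _) (F.mul_mem (hw i) (hw j))

lemma pf_mem (F : IntermediateField k E) (Q : Matrix (Fin n) (Fin n) k) {u w : Fin n → E}
    (hu : ∀ i, u i ∈ F) (hw : ∀ i, w i ∈ F) : pf Q u w ∈ F := by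
  refine F.sum_mem fun i _ => F.sum_mem fun j _ => ?_
  exact F.mul_mem (F.algebraMap_mem _) (F.add_mem (F.mul_mem (hu i) (hw j))
    (F.mul_mem (hw i) (hu j)))

end mem

end Vale.Agent.P287
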