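import Mathlib

/-!
A field of transcendence degree at least `n` generated by `n` elements is the rational function
field in `n` variables.
-/

namespace Vale.Agent.P287

open MvPolynomial

theorem equiv_of_generators_fin {E : Type} [Field E] [Algebra ℂ E] {n : ℕ} (z : Fin n → E)
    (hz : IntermediateField.adjoin ℂ (Set.range z) = ⊤) (htr : (n : Cardinal) ≤ Algebra.trdeg ℂ E) :
    Nonempty (E ≃ₐ[ℂ] FractionRing (MvPolynomial (Fin n) ℂ)) := by
  have halg : Algebra.IsAlgebraic (Algebra.adjoin ℂ (Set.range z)) E := by
    constructor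
    intro e
    have he : e ∈ IntermediateField.adjoin ℂ (Set.range z) := by rw [hz]; trivial
    rw [IntermediateField.mem_adjoin_iff_div] at he
    obtain ⟨r, hr, s, hs, rfl⟩ := he
    by_cases hs0 : s = 0
    · subst hs0
      simp only [div_zero]
      exact isAlgebraic_zero
    · refine ⟨Polynomial.C ⟨s, hs⟩ * Polynomial.X - Polynomial.C ⟨r, hr⟩, ?_, ?_⟩
      · intro h
        have := congrArg (fun p => Polynomial.coeff p 1) h
        simp at this
        exact hs0 (congrArg Subtype.val this)
      · simp only [map_sub, map_mul, Polynomial.aeval_C, Polynomial.aeval_X]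
        change s * (r / s) - r = 0
        field_simp
        simp
  have hb := Algebra.IsAlgebraic.isTranscendenceBasis_of_le_trdeg_of_finite ℂ z (by simpa using htr)
  have e1 := hb.1.aevalEquivField
  rw [hz] at e1
  exact ⟨(e1.trans IntermediateField.topEquiv).symm⟩

theorem equiv_of_generators {E : Type} [Field E] [Algebra ℂ E] {n : ℕ} {ι : Type} [Fintype ι]
    (hc : Fintype.card ι = n) (z : ι → E)
    (hz : IntermediateField.adjoin ℂ (Set.range z) = ⊤) (htr : (n : Cardinal) ≤ Algebra.trdeg ℂ E) :
    Nonempty (E ≃ₐ[ℂ] FractionRing (MvPolynomial (Fin n) ℂ)) := by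
  let e := Fintype.equivFinOfCardEq hc
  refine equiv_of_generators_fin (z ∘ e.symm) ?_ htr
  rw [Set.range_comp, e.symm.range_eq_univ, Set.image_univ, hz]

end Vale.Agent.P287
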