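import Vale.Agent.P287.FunctionField

/-!
Smoothness of the cubic implies that the quadric surface over `ℂ(s₀, s₁)` is nondegenerate.
-/

namespace Vale.Agent.P287

open MvPolynomial

/-- The partial derivatives of the form `F` have no common zero except the origin; for a
homogeneous `F` of degree three this says that the cubic hypersurface `F = 0` is smooth. -/
def SmoothForm (F : MvPolynomial (Fin 6) ℂ) : Prop :=
  ∀ z : Fin 6 → ℂ, (∀ i, aeval z (pderiv i F) = 0) → z = 0

lemma derivation_qf {A : Type*} [CommRing A] [Algebra ℂ A] (D : Derivation ℂ A A) {n : ℕ}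
    (Q : Matrix (Fin n) (Fin n) ℂ) (w : Fin n → A) :
    D (qf Q w) = pf Q w (fun i => D (w i)) := by
  simp only [qf, pf, map_sum]
  refine Finset.sum_congr rfl fun i _ => Finset.sum_congr rfl fun j _ => ?_
  rw [Derivation.leibniz, Derivation.leibniz, Derivation.map_algebraMap]
  simp only [smul_eq_mul, mul_zero, add_zero]
  ring

lemma aeval_pderiv_cubic (B : Fin 3 → Matrix (Fin 6) (Fin 6) ℂ) {A : Type*} [CommRing A]
    [Algebra ℂ A] (z : Fin 6 → A) (i : Fin 6) :
    aeval z (pderiv i (cubic B)) =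
      ∑ k : Fin 3, ((Pi.single i (1 : A) : Fin 6 → A) (Fin.castAdd 3 k) * qf (B k) z +
        z (Fin.castAdd 3 k) * pf (B k) z (Pi.single i 1)) := by
  rw [cubic, map_sum, map_sum]
  refine Finset.sum_congr rfl fun k _ => ?_
  rw [Derivation.leibniz, derivation_qf, map_add, smul_eq_mul, smul_eq_mul, map_mul, map_mul,
    aeval_X, map_pf, map_qf]
  have h1 : (fun j => aeval z (pderiv i (X j : MvPolynomial (Fin 6) ℂ))) =
      (Pi.single i 1 : Fin 6 → A) := by
    funext j
    by_cases h : j = i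
    · subst h; simp
    · rw [pderiv_X_of_ne h, Pi.single_eq_of_ne h, map_zero]
  have h2 : aeval z (pderiv i (X (Fin.castAdd 3 k) : MvPolynomial (Fin 6) ℂ)) =
      (Pi.single i 1 : Fin 6 → A) (Fin.castAdd 3 k) := congrFun h1 _
  rw [h1, h2]
  simp only [aeval_X]
  ring

lemma netp_eq_sub {k A : Type*} [CommRing k] [CommRing A] [Algebra k A] {n : ℕ}
    (Q : Fin 3 → Matrix (Fin n) (Fin n) k) (t : Fin 3 → A) (u w : Fin n → A) :
    netp Q t u w = net Q t (u + w) - net Q t u - net Q t w := by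
  rw [net_add]; ring

lemma pf_eq_sub {k A : Type*} [CommRing k] [CommRing A] [Algebra k A] {n : ℕ}
    (Q : Matrix (Fin n) (Fin n) k) (u w : Fin n → A) :
    pf Q u w = qf Q (u + w) - qf Q u - qf Q w := by
  rw [qf_add]; ring

lemma wvec_add {A : Type*} [CommRing A] (t : Fin 3 → A) (v w : Fin 4 → A) :
    wvec t (v + w) = wvec t v + wvec t w := by
  funext i
  fin_cases i <;> simp [wvec, add_mul]

lemma wvec_smul {A : Type*} [CommRing A] (t : Fin 3 → A) (c : A) (v : Fin 4 → A) :
    wvec t (c • v) = c • wvec t v := by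
  funext i
  fin_cases i <;> simp [wvec, mul_assoc]

lemma pf_qmat (B : Fin 3 → Matrix (Fin 6) (Fin 6) ℂ) (v w : Fin 4 → RatK) :
    pf (qmat B) v w = netp B tvec (wvec tvec v) (wvec tvec w) := by
  rw [pf_eq_sub, qf_qmat, qf_qmat, qf_qmat, netp_eq_sub, ← wvec_add]
  simp

/-- The gradient of the cubic at a point `wvec t v`. -/
lemma grad_wvec (B : Fin 3 → Matrix (Fin 6) (Fin 6) ℂ) {A : Type*} [CommRing A]
    [Algebra ℂ A] (t : Fin 3 → A) (v : Fin 4 → A) (i : Fin 6) :
    aeval (wvec t v) (pderiv i (cubic B)) =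
      ∑ k : Fin 3, (Pi.single i (1 : A) : Fin 6 → A) (Fin.castAdd 3 k) * qf (B k) (wvec t v) +
        v 0 * netp B t (wvec t v) (Pi.single i 1) := by
  rw [aeval_pderiv_cubic, Finset.sum_add_distrib, netp, Finset.mul_sum]
  congr 1
  refine Finset.sum_congr rfl fun k _ => ?_
  have : wvec t v (Fin.castAdd 3 k) = v 0 * t k := by
    fin_cases k <;> rfl
  rw [this]
  ring

/-- If the quadratic form `v ↦ net B t (wvec t v)` and its polar form at `v` vanish, and two of the
partial derivatives of the cubic vanish at `wvec t v`, then all vanish. -/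
lemma all_partials (B : Fin 3 → Matrix (Fin 6) (Fin 6) ℂ) {A : Type*} [CommRing A]
    [Algebra ℂ A] (t : Fin 3 → A) (ht : t 0 = 1) (v : Fin 4 → A)
    (h0 : net B t (wvec t v) = 0)
    (hp : ∀ i : Fin 4, netp B t (wvec t v) (wvec t (Pi.single i 1)) = 0)
    (h1 : aeval (wvec t v) (pderiv 1 (cubic B)) = 0)
    (h2 : aeval (wvec t v) (pderiv 2 (cubic B)) = 0) (i : Fin 6) :
    aeval (wvec t v) (pderiv i (cubic B)) = 0 := by
  have e1 : wvec t (Pi.single 1 1) = (Pi.single 3 1 : Fin 6 → A) := by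
    funext i; fin_cases i <;> simp [wvec, Pi.single_apply]
  have e2 : wvec t (Pi.single 2 1) = (Pi.single 4 1 : Fin 6 → A) := by
    funext i; fin_cases i <;> simp [wvec, Pi.single_apply]
  have e3 : wvec t (Pi.single 3 1) = (Pi.single 5 1 : Fin 6 → A) := by
    funext i; fin_cases i <;> simp [wvec, Pi.single_apply]
  have e0 : wvec t (Pi.single 0 1) = (Pi.single 0 1 + (t 1 • Pi.single 1 1 +
      t 2 • Pi.single 2 1) : Fin 6 → A) := by
    funext i; fin_cases i <;> simp [wvec, Pi.single_apply, ht]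
  have p0 := hp 0
  have p1 := hp 1
  have p2 := hp 2
  have p3 := hp 3
  rw [e1] at p1
  rw [e2] at p2
  rw [e3] at p3
  rw [e0, netp_add_right, netp_add_right, netp_smul_right, netp_smul_right] at p0
  rw [net, Fin.sum_univ_three, ht] at h0
  have g1 := grad_wvec B t v 1
  have g2 := grad_wvec B t v 2
  rw [h1] at g1
  rw [h2] at g2
  have s1 : ∀ z : Fin 3 → A, ∑ k : Fin 3, (Pi.single (1 : Fin 6) (1 : A) : Fin 6 → A)
      (Fin.castAdd 3 k) * z k = z 1 := by
    intro z
    rw [Fin.sum_univ_three]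
    simp [Pi.single_apply]
  have s2 : ∀ z : Fin 3 → A, ∑ k : Fin 3, (Pi.single (2 : Fin 6) (1 : A) : Fin 6 → A)
      (Fin.castAdd 3 k) * z k = z 2 := by
    intro z
    rw [Fin.sum_univ_three]
    simp [Pi.single_apply]
  have s0 : ∀ z : Fin 3 → A, ∑ k : Fin 3, (Pi.single (0 : Fin 6) (1 : A) : Fin 6 → A)
      (Fin.castAdd 3 k) * z k = z 0 := by
    intro z
    rw [Fin.sum_univ_three]
    simp [Pi.single_apply]
  rw [s1 (fun k => qf (B k) (wvec t v))] at g1
  rw [s2 (fun k => qf (B k) (wvec t v))] at g2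
  fin_cases i
  · change aeval (wvec t v) (pderiv 0 (cubic B)) = 0
    rw [grad_wvec, s0 (fun k => qf (B k) (wvec t v))]
    linear_combination h0 + v 0 * p0 + t 1 * g1 + t 2 * g2
  · exact h1
  · exact h2
  · change aeval (wvec t v) (pderiv 3 (cubic B)) = 0
    rw [grad_wvec, p1]
    simp [Fin.sum_univ_three, Pi.single_apply]
  · change aeval (wvec t v) (pderiv 4 (cubic B)) = 0
    rw [grad_wvec, p2]
    simp [Fin.sum_univ_three, Pi.single_apply]
  · change aeval (wvec t v) (pderiv 5 (cubic B)) = 0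
    rw [grad_wvec, p3]
    simp [Fin.sum_univ_three, Pi.single_apply]

end Vale.Agent.P287
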