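import Vale.Agent.P287.FunctionField

/-!
Rationality of the function field.
-/

namespace Vale.Agent.P287

open MvPolynomial

variable {f : MvPolynomial (Fin 5) ℂ}

/-- The images of the coordinates in the function field. -/
noncomputable def pr (f : MvPolynomial (Fin 5) ℂ) :
    MvPolynomial (Fin 5) ℂ →ₐ[ℂ] FractionRing (MvPolynomial (Fin 5) ℂ ⧸ Ideal.span {f}) :=
  (IsScalarTower.toAlgHom ℂ (MvPolynomial (Fin 5) ℂ ⧸ Ideal.span {f})
    (FractionRing (MvPolynomial (Fin 5) ℂ ⧸ Ideal.span {f}))).comp
    (Ideal.Quotient.mkₐ ℂ (Ideal.span {f}))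

lemma pr_eq_zero_iff (f g : MvPolynomial (Fin 5) ℂ) : pr f g = 0 ↔ f ∣ g := by
  have h1 : pr f g = algebraMap (MvPolynomial (Fin 5) ℂ ⧸ Ideal.span {f})
      (FractionRing (MvPolynomial (Fin 5) ℂ ⧸ Ideal.span {f})) (Ideal.Quotient.mk _ g) := rfl
  rw [h1, map_eq_zero_iff _ (IsFractionRing.injective _ _), Ideal.Quotient.eq_zero_iff_mem,
    Ideal.mem_span_singleton]

/-- Transcendence degree at least four. -/
lemma four_le_trdeg (hp : Prime f) :
    (4 : Cardinal) ≤
      Algebra.trdeg ℂ (FractionRing (MvPolynomial (Fin 5) ℂ ⧸ Ideal.span {f})) := by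
  classical
  -- a variable occurring in `f`
  obtain ⟨i0, hi0⟩ : ∃ i0, degreeOf i0 f ≠ 0 := by
    by_contra hcon
    push Not at hcon
    have hvars : f.vars = ∅ := by
      rw [Finset.eq_empty_iff_forall_notMem]
      intro i hi
      have := hcon i
      rw [mem_vars_iff_mem_support] at hi
      obtain ⟨m, hm, hmi⟩ := hi
      have h2 := monomial_le_degreeOf i hm
      have h3 := Finsupp.mem_support_iff.mp hmi
      omega
    rw [vars_eq_empty_iff_eq_C] at hvars
    rw [hvars] at hp
    have h0 : coeff 0 f ≠ 0 := by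
      intro h
      rw [h, map_zero] at hp
      exact hp.ne_zero rfl
    exact hp.not_isUnit ((IsUnit.mk0 _ h0).map C)
  have hai : AlgebraicIndependent ℂ (fun j : {j : Fin 5 // j ≠ i0} => pr f (X j.1)) := by
    rw [algebraicIndependent_iff]
    intro p hpz
    have h1 : aeval (fun j : {j : Fin 5 // j ≠ i0} => pr f (X j.1)) p = pr f (rename Subtype.val p) := by
      have : (aeval (fun j : {j : Fin 5 // j ≠ i0} => pr f (X j.1)) : _ →ₐ[ℂ] _) =
          (pr f).comp (rename Subtype.val) := by
        apply MvPolynomial.algHom_ext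
        intro i
        simp
      rw [this]
      rfl
    rw [h1, pr_eq_zero_iff] at hpz
    obtain ⟨h, hh⟩ := hpz
    by_contra hp0
    have hr0 : rename (Subtype.val : {j : Fin 5 // j ≠ i0} → Fin 5) p ≠ 0 := by
      intro h0
      exact hp0 ((map_eq_zero_iff _ (rename_injective _ Subtype.val_injective)).mp h0)
    have hh0 : h ≠ 0 := by
      rintro rfl
      rw [mul_zero] at hh
      exact hr0 hh
    have hd := congrArg (degreeOf i0) hh
    rw [degreeOf_mul_eq hp.ne_zero hh0] at hd
    have h0 : degreeOf i0 (rename (Subtype.val : {j : Fin 5 // j ≠ i0} → Fin 5) p) = 0 := by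
      rw [← Nat.le_zero, degreeOf_le_iff]
      intro m hm
      rw [Nat.le_zero]
      by_contra hmi
      have : i0 ∈ (rename (Subtype.val : {j : Fin 5 // j ≠ i0} → Fin 5) p).vars := by
        rw [mem_vars_iff_mem_support]
        exact ⟨m, hm, Finsupp.mem_support_iff.mpr hmi⟩
      have h2 := vars_rename Subtype.val p this
      rw [Finset.mem_image] at h2
      obtain ⟨j, _, hj⟩ := h2
      exact j.2 hj
    omega
  have hc := hai.cardinalMk_le_trdeg
  have hcard : Cardinal.mk {j : Fin 5 // j ≠ i0} = 4 := by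
    rw [Cardinal.mk_fintype]
    have : Fintype.card {j : Fin 5 // j ≠ i0} = 4 := by
      rw [Fintype.card_subtype_compl]
      simp
    rw [this]
    norm_num
  rw [hcard] at hc
  exact hc

/-- The coordinates of the point of the quadric over the function field. -/
noncomputable def etav (f : MvPolynomial (Fin 5) ℂ) :
    Fin 4 → FractionRing (MvPolynomial (Fin 5) ℂ ⧸ Ideal.span {f}) :=
  Fin.cons 1 (fun i : Fin 3 => pr f (X (Fin.natAdd 2 i)))

lemma tvec_LI : ∀ c : Fin 3 → ℂ, ∑ k, algebraMap ℂ RatK (c k) * tvec k = 0 → c = 0 := by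
  intro c hc
  have h1 : ∑ k, algebraMap ℂ RatK (c k) * tvec k =
      algebraMap (MvPolynomial (Fin 2) ℂ) RatK (C (c 0) + C (c 1) * X 0 + C (c 2) * X 1) := by
    rw [Fin.sum_univ_three]
    simp only [tvec, map_add, map_mul, ← MvPolynomial.algebraMap_eq,
      ← IsScalarTower.algebraMap_apply ℂ (MvPolynomial (Fin 2) ℂ) RatK]
    simp
  rw [h1, map_eq_zero_iff _ (IsFractionRing.injective _ _)] at hc
  have e0 := congrArg (aeval (R := ℂ) (![0, 0] : Fin 2 → ℂ)) hc
  have e1 := congrArg (aeval (R := ℂ) (![1, 0] : Fin 2 → ℂ)) hc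
  have e2 := congrArg (aeval (R := ℂ) (![0, 1] : Fin 2 → ℂ)) hc
  simp at e0 e1 e2
  rw [e0] at e1 e2
  funext k
  fin_cases k
  · exact e0
  · simpa using e1
  · simpa using e2

/-- The function field of the cubic is the function field of a quadric surface over `ℂ(s₀, s₁)`;
rationality follows if this field is generated by four elements. -/
theorem rational_of_fourGenerated (B : Fin 3 → Matrix (Fin 6) (Fin 6) ℂ)
    (hp : Prime (chart (cubic B)))
    (nd : ∀ v : Fin 4 → RatK, (∀ w, pf (qmat B) v w = 0) → v = 0)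
    (key : ∀ (E : Type) [Field E] [Algebra ℂ E] [Algebra RatK E] [IsScalarTower ℂ RatK E]
      (η : Fin 4 → E), QuadricPoint RatK E tvec (qmat B) η →
      (∀ G : MvPolynomial (Fin 3) RatK, aeval (fun i : Fin 3 => η i.succ) G = 0 →
        fK (qmat B) ∣ G) → FourGenerated E) :
    Nonempty (FractionRing (MvPolynomial (Fin 5) ℂ ⧸ Ideal.span {chart (cubic B)}) ≃ₐ[ℂ]
      FractionRing (MvPolynomial (Fin 4) ℂ)) := by
  classical
  set f := chart (cubic B) with hf
  have hprime : (Ideal.span {f}).IsPrime := (Ideal.span_singleton_prime hp.ne_zero).mpr hp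
  have : IsDomain (MvPolynomial (Fin 5) ℂ ⧸ Ideal.span {f}) := Ideal.Quotient.isDomain _
  set E := FractionRing (MvPolynomial (Fin 5) ℂ ⧸ Ideal.span {f}) with hE
  -- injectivity of the polynomial ring in two variables
  set φ : MvPolynomial (Fin 2) ℂ →ₐ[ℂ] E := (pr f).comp ren with hφ
  have h2 := two_le_totalDegree_fK (qmat B) nd
  have hφi : Function.Injective φ := by
    rw [injective_iff_map_eq_zero]
    intro n hn
    have h3 : pr f (ren n) = 0 := hn
    rw [pr_eq_zero_iff] at h3
    have h4 : rho f ∣ rho (ren n) := map_dvd rho h3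
    rw [hf, rho_chart, rho_ren] at h4
    by_contra hn0
    obtain ⟨g, hg⟩ := h4
    have hne : C (algebraMap (MvPolynomial (Fin 2) ℂ) RatK n) ≠ (0 : MvPolynomial (Fin 3) RatK) := by
      intro h0
      rw [C_eq_zero] at h0
      exact hn0 ((map_eq_zero_iff _ (IsFractionRing.injective _ _)).mp h0)
    have hg0 : g ≠ 0 := by
      rintro rfl
      rw [mul_zero] at hg
      exact hne hg
    have hf0 : fK (qmat B) ≠ 0 := by
      intro h0
      rw [h0, zero_mul] at hg
      exact hne hg
    have h5 := congrArg totalDegree hg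
    rw [totalDegree_mul_of_isDomain hf0 hg0, totalDegree_C] at h5
    omega
  let ι : RatK →ₐ[ℂ] E := IsFractionRing.liftAlgHom (K := RatK) hφi
  have hι : ∀ n, ι (algebraMap (MvPolynomial (Fin 2) ℂ) RatK n) = φ n := by
    intro n
    exact IsFractionRing.lift_algebraMap hφi n
  let _ : Algebra RatK E := ι.toRingHom.toAlgebra
  have hιa : ∀ c : RatK, algebraMap RatK E c = ι c := fun c => rfl
  have : IsScalarTower ℂ RatK E := IsScalarTower.of_algebraMap_eq fun c => by
    rw [hιa]
    exact (ι.commutes c).symm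
  -- evaluation of polynomials over `K`
  set η : Fin 4 → E := etav f with hη
  let ev : MvPolynomial (Fin 3) RatK →ₐ[RatK] E := aeval (fun i : Fin 3 => η i.succ)
  have hφX : ∀ i, φ (X i) = pr f (X (Fin.castAdd 3 i)) := by
    intro i
    fin_cases i <;> simp [hφ, ren]
  have ht1 : ι (tvec 1) = pr f (X 0) := by
    have : tvec 1 = algebraMap (MvPolynomial (Fin 2) ℂ) RatK (X 0) := rfl
    rw [this, hι, hφX]
    rfl
  have ht2 : ι (tvec 2) = pr f (X 1) := by
    have : tvec 2 = algebraMap (MvPolynomial (Fin 2) ℂ) RatK (X 1) := rfl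
    rw [this, hι, hφX]
    rfl
  have hevrho : ∀ g, ev (rho g) = pr f g := by
    have : (ev.restrictScalars ℂ).comp rho = pr f := by
      apply MvPolynomial.algHom_ext
      intro i
      fin_cases i
      · simp [rho, ev, hιa, ht1]
      · simp [rho, ev, hιa, ht2]
      · simp [rho, ev, hη, etav]
      · simp [rho, ev, hη, etav]
      · simp [rho, ev, hη, etav]
    intro g
    exact DFunLike.congr_fun this g
  -- membership
  have hC : ∀ G : MvPolynomial (Fin 3) RatK, aeval (fun i : Fin 3 => η i.succ) G = 0 →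
      fK (qmat B) ∣ G := by
    intro G hG
    obtain ⟨g, d, hd, hgd⟩ := exists_rho G
    have h3 : pr f g = 0 := by
      rw [← hevrho, hgd, map_mul]
      have : ev G = 0 := hG
      rw [this, mul_zero]
    rw [pr_eq_zero_iff] at h3
    have h4 : rho f ∣ rho g := map_dvd rho h3
    rw [hf, rho_chart, hgd] at h4
    have hu : IsUnit (C (algebraMap (MvPolynomial (Fin 2) ℂ) RatK d) : MvPolynomial (Fin 3) RatK) := by
      refine (IsUnit.mk0 _ ?_).map C
      intro h0
      exact hd ((map_eq_zero_iff _ (IsFractionRing.injective _ _)).mp h0)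
    exact (hu.dvd_mul_left).mp h4
  have hKmem : ∀ F : IntermediateField ℂ E, (∀ i, algebraMap RatK E (tvec i) ∈ F) →
      ∀ c : RatK, algebraMap RatK E c ∈ F := by
    intro F hF c
    obtain ⟨n, d, hd, rfl⟩ := IsFractionRing.div_surjective (A := MvPolynomial (Fin 2) ℂ) c
    have hmem : ∀ n : MvPolynomial (Fin 2) ℂ, φ n ∈ F := by
      intro n
      induction n using MvPolynomial.induction_on with
      | C a =>
        have : φ (C a) = algebraMap ℂ E a := by
          rw [← MvPolynomial.algebraMap_eq]
          exact φ.commutes a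
        rw [this]
        exact F.algebraMap_mem a
      | add p q hp hq => rw [map_add]; exact F.add_mem hp hq
      | mul_X p i hp =>
        rw [map_mul]
        refine F.mul_mem hp ?_
        rw [hφX]
        fin_cases i
        · have := hF 1
          rw [hιa, ht1] at this
          exact this
        · have := hF 2
          rw [hιa, ht2] at this
          exact this
    rw [hιa, map_div₀, hι, hι]
    exact F.div_mem (hmem n) (hmem d)
  have hEmem : ∀ F : IntermediateField ℂ E, (∀ c : RatK, algebraMap RatK E c ∈ F) →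
      (∀ i, η i ∈ F) → F = ⊤ := by
    intro F hF1 hF2
    rw [eq_top_iff]
    intro e _
    have hmem : ∀ g : MvPolynomial (Fin 5) ℂ, pr f g ∈ F := by
      intro g
      induction g using MvPolynomial.induction_on with
      | C a =>
        have : pr f (C a) = algebraMap ℂ E a := by
          rw [← MvPolynomial.algebraMap_eq]
          exact (pr f).commutes a
        rw [this]
        exact F.algebraMap_mem a
      | add p q hp hq => rw [map_add]; exact F.add_mem hp hq
      | mul_X p i hp =>
        rw [map_mul]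
        refine F.mul_mem hp ?_
        fin_cases i
        · have := hF1 (tvec 1)
          rw [hιa, ht1] at this
          exact this
        · have := hF1 (tvec 2)
          rw [hιa, ht2] at this
          exact this
        · exact hF2 1
        · exact hF2 2
        · exact hF2 3
    obtain ⟨a, b, hb, rfl⟩ := IsFractionRing.div_surjective
      (A := MvPolynomial (Fin 5) ℂ ⧸ Ideal.span {f}) e
    obtain ⟨a, rfl⟩ := Ideal.Quotient.mk_surjective a
    obtain ⟨b, rfl⟩ := Ideal.Quotient.mk_surjective b
    exact F.div_mem (hmem a) (hmem b)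
  have hLI : ∀ c : Fin 4 → RatK, ∑ i, algebraMap RatK E (c i) * η i = 0 → c = 0 := by
    intro c hc
    set G : MvPolynomial (Fin 3) RatK := C (c 0) + ∑ i : Fin 3, C (c i.succ) * X i with hG
    have hG0 : aeval (fun i : Fin 3 => η i.succ) G = 0 := by
      rw [hG, map_add, map_sum, ← hc, Fin.sum_univ_succ (n := 3)]
      have : η 0 = 1 := rfl
      simp [this]
    obtain ⟨g, hg⟩ := hC G hG0
    have hGz : G = 0 := by
      by_contra hne
      have hg0 : g ≠ 0 := by
        rintro rfl
        rw [mul_zero] at hg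
        exact hne hg
      have hf0 : fK (qmat B) ≠ 0 := by
        intro h0
        rw [h0, zero_mul] at hg
        exact hne hg
      have h5 := congrArg totalDegree hg
      rw [totalDegree_mul_of_isDomain hf0 hg0] at h5
      have h6 : G.totalDegree ≤ 1 := by
        refine (totalDegree_add _ _).trans (max_le (by simp) ?_)
        refine totalDegree_finsetSum_le fun i _ => ?_
        refine (totalDegree_mul _ _).trans ?_
        simp
      omega
    have e0 := congrArg (aeval (R := RatK) (0 : Fin 3 → RatK)) hGz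
    simp [hG] at e0
    funext i
    refine Fin.cases ?_ (fun i => ?_) i
    · exact e0
    · have e1 := congrArg (aeval (R := RatK) (Pi.single i 1 : Fin 3 → RatK)) hGz
      rw [hG, map_add, map_sum, Finset.sum_eq_single i] at e1
      · simpa [e0] using e1
      · intro j _ hj
        simp [Pi.single_eq_of_ne hj]
      · simp
  have hq : qf (qmat B) η = 0 := by
    have h3 : aeval (fun i : Fin 3 => η i.succ) (fK (qmat B)) = 0 := by
      have h4 : ev (rho f) = 0 := by
        rw [hevrho, pr_eq_zero_iff]
      have h5 : rho f = fK (qmat B) := by rw [hf, rho_chart]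
      exact (congrArg ev h5).symm.trans h4
    rw [aeval_fK] at h3
    have : (Fin.cons 1 (fun i : Fin 3 => η i.succ) : Fin 4 → E) = η := by
      funext i
      refine Fin.cases ?_ (fun i => ?_) i
      · rfl
      · simp
    rwa [this] at h3
  have H : QuadricPoint RatK E tvec (qmat B) η :=
    { t0 := rfl
      hK := hKmem
      hE := hEmem
      nd := nd
      η0 := rfl
      LI := hLI
      hq := hq }
  obtain ⟨κ, hκ, hcard, z, hz⟩ := key E η H hC
  exact equiv_of_generators (n := 4) hcard z hz (four_le_trdeg hp)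

theorem rational_of_netData (B : Fin 3 → Matrix (Fin 6) (Fin 6) ℂ)
    (hp : Prime (chart (cubic B)))
    (nd : ∀ v : Fin 4 → RatK, (∀ w, pf (qmat B) v w = 0) → v = 0)
    {Q : Fin 3 → Matrix (Fin 6) (Fin 6) ℂ} {x : Fin 6 → ℂ} {l : RatK}
    {P : Matrix (Fin 6) (Fin 4) RatK} (N : NetData tvec (qmat B) Q x l P) :
    Nonempty (FractionRing (MvPolynomial (Fin 5) ℂ ⧸ Ideal.span {chart (cubic B)}) ≃ₐ[ℂ]
      FractionRing (MvPolynomial (Fin 4) ℂ)) := by
  have : CharZero RatK := charZero_of_injective_algebraMap (algebraMap ℂ RatK).injective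
  refine rational_of_fourGenerated B hp nd fun E _ _ _ _ η H hC => ?_
  exact fourGenerated_of_netData H N hC tvec_LI

theorem rational_of_isotropic (B : Fin 3 → Matrix (Fin 6) (Fin 6) ℂ)
    (hp : Prime (chart (cubic B)))
    (nd : ∀ v : Fin 4 → RatK, (∀ w, pf (qmat B) v w = 0) → v = 0)
    (v : Fin 4 → RatK) (hv : v ≠ 0) (hqv : qf (qmat B) v = 0) :
    Nonempty (FractionRing (MvPolynomial (Fin 5) ℂ ⧸ Ideal.span {chart (cubic B)}) ≃ₐ[ℂ]
      FractionRing (MvPolynomial (Fin 4) ℂ)) := by
  refine rational_of_fourGenerated B hp nd fun E _ _ _ _ η H _ => ?_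
  exact H.isotropic v hv hqv

end Vale.Agent.P287
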