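import Vale.Agent.P287.Forms
import Vale.Agent.P287.Generators

/-!
The classical case: the quadric surface over `K` has a rational point.
-/

namespace Vale.Agent.P287

open MvPolynomial

/-- `E / K` is a field extension of `ℂ`-algebras, `K` is generated by `t 0, t 1, t 2`, and `E` is
generated over `K` by the coordinates `η` of a point of the quadric `qf q = 0`, with `η 0 = 1` and
with coordinates linearly independent over `K`. -/
structure QuadricPoint (K E : Type) [Field K] [Field E] [Algebra ℂ K] [Algebra ℂ E] [Algebra K E]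
    [IsScalarTower ℂ K E] (t : Fin 3 → K) (q : Matrix (Fin 4) (Fin 4) K) (η : Fin 4 → E) :
    Prop where
  t0 : t 0 = 1
  hK : ∀ F : IntermediateField ℂ E, (∀ i, algebraMap K E (t i) ∈ F) →
    ∀ c : K, algebraMap K E c ∈ F
  hE : ∀ F : IntermediateField ℂ E, (∀ c : K, algebraMap K E c ∈ F) → (∀ i, η i ∈ F) → F = ⊤
  nd : ∀ v : Fin 4 → K, (∀ w, pf q v w = 0) → v = 0
  η0 : η 0 = 1
  LI : ∀ c : Fin 4 → K, ∑ i, algebraMap K E (c i) * η i = 0 → c = 0
  hq : qf q η = 0

/-- `E` is generated over `ℂ` by four elements. -/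
def FourGenerated (E : Type) [Field E] [Algebra ℂ E] : Prop :=
  ∃ (ι : Type) (_ : Fintype ι) (_ : Fintype.card ι = 4) (z : ι → E),
    IntermediateField.adjoin ℂ (Set.range z) = ⊤

section

variable {K E : Type} [Field K] [Field E] [Algebra ℂ K] [Algebra ℂ E] [Algebra K E]
    [IsScalarTower ℂ K E] {t : Fin 3 → K} {q : Matrix (Fin 4) (Fin 4) K} {η : Fin 4 → E}

/-- If a multiple of `η` has coordinates in a subfield containing `K`, this subfield is `E`. -/
lemma QuadricPoint.eq_top (H : QuadricPoint K E t q η) (F : IntermediateField ℂ E)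
    (hF : ∀ c : K, algebraMap K E c ∈ F) (e : E) (he : e ≠ 0) (h : ∀ i, e * η i ∈ F) : F = ⊤ := by
  have he' : e ∈ F := by simpa [H.η0] using h 0
  refine H.hE F hF fun i => ?_
  have : η i = e⁻¹ * (e * η i) := by field_simp
  rw [this]
  exact F.mul_mem (F.inv_mem he') (h i)

theorem QuadricPoint.isotropic (H : QuadricPoint K E t q η) (v : Fin 4 → K) (hv : v ≠ 0)
    (hqv : qf q v = 0) : FourGenerated E := by
  classical
  obtain ⟨j0, hj0⟩ : ∃ j, v j ≠ 0 := by
    by_contra h
    push Not at h
    exact hv (funext h)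
  set vE : Fin 4 → E := fun i => algebraMap K E (v i) with hvE
  have hvj0 : vE j0 ≠ 0 := by
    simpa [hvE] using hj0
  set c : E := η j0 / vE j0 with hc
  set η' : Fin 4 → E := η + (-c) • vE with hη'
  have hη'j0 : η' j0 = 0 := by
    simp only [hη', Pi.add_apply, Pi.smul_apply, smul_eq_mul, hc]
    field_simp
    simp
  obtain ⟨j1, hj1⟩ : ∃ j, η' j ≠ 0 := by
    by_contra h
    push Not at h
    -- choose an index different from j0
    obtain ⟨j2, hj2⟩ : ∃ j2 : Fin 4, j2 ≠ j0 := exists_ne j0
    have h1 := h j2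
    have h2 : vE j0 * η j2 - vE j2 * η j0 = 0 := by
      simp only [hη', Pi.add_apply, Pi.smul_apply, smul_eq_mul, hc] at h1
      field_simp at h1
      linear_combination h1
    have h3 := H.LI (Pi.single j2 (v j0) - Pi.single j0 (v j2)) (by
      rw [← h2]
      simp only [Pi.sub_apply, map_sub, sub_mul, Finset.sum_sub_distrib]
      congr 1
      · rw [Finset.sum_eq_single j2]
        · simp [hvE]
        · intro b _ hb; simp [Pi.single_eq_of_ne hb]
        · simp
      · rw [Finset.sum_eq_single j0]
        · simp [hvE]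
        · intro b _ hb; simp [Pi.single_eq_of_ne hb]
        · simp)
    have h4 := congrFun h3 j2
    simp [hj2] at h4
    exact hj0 h4
  have hj10 : j1 ≠ j0 := by
    rintro rfl
    exact hj1 hη'j0
  -- the polar form with `v`
  have hpol : pf q η' vE ≠ 0 := by
    have h1 : pf q η' vE = pf q vE η := by
      rw [hη', pf_add_left, pf_smul_left, pf_self, pf_comm]
      have : qf q vE = 0 := by
        rw [hvE, qf_algebraMap, hqv, map_zero]
      rw [this]
      ring
    rw [h1, hvE, pf_algebraMap_left]
    intro h2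
    have h3 := H.LI _ h2
    apply hv
    apply H.nd
    intro w
    rw [pf_eq_sum]
    refine Finset.sum_eq_zero fun i _ => ?_
    have := congrFun h3 i
    simp only [Pi.zero_apply] at this
    rw [this, zero_mul]
  set e : E := (η' j1)⁻¹ with he
  have he0 : e ≠ 0 := inv_ne_zero hj1
  set η'' : Fin 4 → E := e • η' with hη''
  -- generators
  let ι : Type := Fin 2 ⊕ {i : Fin 4 // i ≠ j0 ∧ i ≠ j1}
  let z : ι → E := Sum.elim (fun i => algebraMap K E (t i.succ)) (fun i => η'' i)
  have hcard : Fintype.card ι = 4 := by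
    have : Fintype.card {i : Fin 4 // i ≠ j0 ∧ i ≠ j1} = 2 := by
      rw [Fintype.card_subtype]
      have : (Finset.univ.filter fun i : Fin 4 => i ≠ j0 ∧ i ≠ j1) = {j0, j1}ᶜ := by
        ext i; simp
      rw [this, Finset.card_compl, Finset.card_pair hj10.symm]
      simp
    simp [ι, this]
  refine ⟨ι, inferInstance, hcard, z, ?_⟩
  set F := IntermediateField.adjoin ℂ (Set.range z) with hF
  have hzF : ∀ i, z i ∈ F := fun i => IntermediateField.subset_adjoin ℂ _ ⟨i, rfl⟩
  have htF : ∀ i, algebraMap K E (t i) ∈ F := by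
    intro i
    refine Fin.cases ?_ (fun i => ?_) i
    · rw [H.t0, map_one]; exact F.one_mem
    · exact hzF (Sum.inl i)
  have hKF : ∀ c : K, algebraMap K E c ∈ F := H.hK F htF
  have hη''F : ∀ i, η'' i ∈ F := by
    intro i
    by_cases h0 : i = j0
    · subst h0
      have : η'' i = 0 := by simp [hη'', hη'j0]
      rw [this]; exact F.zero_mem
    by_cases h1 : i = j1
    · subst h1
      have : η'' i = 1 := by
        simp only [hη'', Pi.smul_apply, smul_eq_mul, he]
        exact inv_mul_cancel₀ hj1
      rw [this]; exact F.one_mem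
    exact hzF (Sum.inr ⟨i, h0, h1⟩)
  -- solve for c
  have hsum : η = η' + c • vE := by
    rw [hη']
    funext i
    simp only [Pi.add_apply, Pi.smul_apply, smul_eq_mul]
    ring
  have hqη : qf q η' + c * pf q η' vE = 0 := by
    have h := H.hq
    rw [hsum, qf_add, qf_smul, pf_smul_right] at h
    have : qf q vE = 0 := by
      rw [hvE, qf_algebraMap, hqv, map_zero]
    rw [this] at h
    linear_combination h
  have hKmem : ∀ {w : Fin 4 → E}, (∀ i, w i ∈ F) → qf q w ∈ F := by
    intro w hw
    refine F.sum_mem fun i _ => F.sum_mem fun j _ => ?_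
    exact F.mul_mem (hKF _) (F.mul_mem (hw i) (hw j))
  have hKmem2 : ∀ {u w : Fin 4 → E}, (∀ i, u i ∈ F) → (∀ i, w i ∈ F) → pf q u w ∈ F := by
    intro u w hu hw
    refine F.sum_mem fun i _ => F.sum_mem fun j _ => ?_
    exact F.mul_mem (hKF _) (F.add_mem (F.mul_mem (hu i) (hw j)) (F.mul_mem (hw i) (hu j)))
  have hcF : e * c ∈ F := by
    have hp : pf q η'' vE ≠ 0 := by
      rw [hη'', pf_smul_left]
      exact mul_ne_zero he0 hpol
    have h1 : e * c = - qf q η'' / pf q η'' vE := by
      rw [eq_div_iff hp, hη'', pf_smul_left, qf_smul]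
      linear_combination e ^ 2 * hqη
    rw [h1]
    exact F.div_mem (F.neg_mem (hKmem hη''F)) (hKmem2 hη''F fun i => hKF _)
  refine H.eq_top F hKF e he0 fun i => ?_
  have : e * η i = η'' i + (e * c) * vE i := by
    rw [hsum]
    simp only [hη'', Pi.add_apply, Pi.smul_apply, smul_eq_mul]
    ring
  rw [this]
  exact F.add_mem (hη''F i) (F.mul_mem hcF (hKF _))

end

end Vale.Agent.P287
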