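import Vale.Agent.P287.IsoCase

/-!
Projection of the family of quadrics from a base point of the net.
-/

namespace Vale.Agent.P287

open MvPolynomial

section net

variable {k A A' : Type*} [CommRing k] [CommRing A] [Algebra k A] [CommRing A'] [Algebra k A']
variable {n : ℕ}

/-- The member `∑ t k * Q k` of the net `Q`, evaluated at `w`. -/
noncomputable def net (Q : Fin 3 → Matrix (Fin n) (Fin n) k) (t : Fin 3 → A) (w : Fin n → A) : A :=
  ∑ i, t i * qf (Q i) w

/-- The polar form of `net Q t`. -/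
noncomputable def netp (Q : Fin 3 → Matrix (Fin n) (Fin n) k) (t : Fin 3 → A) (u w : Fin n → A) :
    A :=
  ∑ i, t i * pf (Q i) u w

lemma map_net (f : A →ₐ[k] A') (Q : Fin 3 → Matrix (Fin n) (Fin n) k) (t : Fin 3 → A)
    (w : Fin n → A) : f (net Q t w) = net Q (fun i => f (t i)) (fun i => f (w i)) := by
  simp [net, map_sum, map_qf]

lemma map_netp (f : A →ₐ[k] A') (Q : Fin 3 → Matrix (Fin n) (Fin n) k) (t : Fin 3 → A)
    (u w : Fin n → A) :
    f (netp Q t u w) = netp Q (fun i => f (t i)) (fun i => f (u i)) (fun i => f (w i)) := by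
  simp [netp, map_sum, map_pf]

lemma net_add (Q : Fin 3 → Matrix (Fin n) (Fin n) k) (t : Fin 3 → A) (u w : Fin n → A) :
    net Q t (u + w) = net Q t u + net Q t w + netp Q t u w := by
  simp only [net, netp, qf_add, ← Finset.sum_add_distrib]
  refine Finset.sum_congr rfl fun i _ => ?_
  ring

lemma net_smul (Q : Fin 3 → Matrix (Fin n) (Fin n) k) (t : Fin 3 → A) (c : A) (w : Fin n → A) :
    net Q t (c • w) = c ^ 2 * net Q t w := by
  simp only [net, qf_smul, Finset.mul_sum]
  refine Finset.sum_congr rfl fun i _ => ?_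
  ring

lemma netp_add_right (Q : Fin 3 → Matrix (Fin n) (Fin n) k) (t : Fin 3 → A) (u w w' : Fin n → A) :
    netp Q t u (w + w') = netp Q t u w + netp Q t u w' := by
  simp only [netp, pf_add_right, ← Finset.sum_add_distrib]
  refine Finset.sum_congr rfl fun i _ => ?_
  ring

lemma netp_smul_right (Q : Fin 3 → Matrix (Fin n) (Fin n) k) (t : Fin 3 → A) (c : A)
    (u w : Fin n → A) : netp Q t u (c • w) = c * netp Q t u w := by
  simp only [netp, pf_smul_right, Finset.mul_sum]
  refine Finset.sum_congr rfl fun i _ => ?_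
  ring

lemma netp_comm (Q : Fin 3 → Matrix (Fin n) (Fin n) k) (t : Fin 3 → A) (u w : Fin n → A) :
    netp Q t u w = netp Q t w u := by
  simp only [netp]
  refine Finset.sum_congr rfl fun i _ => ?_
  rw [pf_comm]

lemma netp_self (Q : Fin 3 → Matrix (Fin n) (Fin n) k) (t : Fin 3 → A) (w : Fin n → A) :
    netp Q t w w = 2 * net Q t w := by
  simp only [netp, net, Finset.mul_sum, pf_self]
  refine Finset.sum_congr rfl fun i _ => ?_
  ring

end net

section leftInverse

variable {K : Type*} [Field K] {m n : ℕ}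

lemma exists_left_inverse (P : Matrix (Fin m) (Fin n) K) (h : ∀ u, P.mulVec u = 0 → u = 0) :
    ∃ P' : Matrix (Fin n) (Fin m) K, P' * P = 1 := by
  have hinj : LinearMap.ker P.mulVecLin = ⊥ := by
    rw [LinearMap.ker_eq_bot']
    exact h
  obtain ⟨g, hg⟩ := LinearMap.exists_leftInverse_of_injective P.mulVecLin hinj
  refine ⟨LinearMap.toMatrix' g, ?_⟩
  have h2 := congrArg LinearMap.toMatrix' hg
  rw [LinearMap.toMatrix'_comp] at h2
  rw [LinearMap.toMatrix'_id] at h2
  rw [← h2]
  congr 1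
  exact (LinearMap.toMatrix'_toLin' P).symm

end leftInverse

section

variable {K E : Type} [Field K] [Field E] [Algebra ℂ K] [Algebra ℂ E] [Algebra K E]
    [IsScalarTower ℂ K E] {t : Fin 3 → K} {q : Matrix (Fin 4) (Fin 4) K} {η : Fin 4 → E}

/-- The point `x` with constant coordinates, in an algebra. -/
def cst (A : Type*) [CommRing A] [Algebra ℂ A] {n : ℕ} (x : Fin n → ℂ) : Fin n → A :=
  fun i => algebraMap ℂ A (x i)

lemma algebraMap_cst {n : ℕ} (x : Fin n → ℂ) :
    (fun i => algebraMap K E (cst K x i)) = cst E x := by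
  funext i
  simp [cst, ← IsScalarTower.algebraMap_apply ℂ K E]

/-- `P` embeds the quadric `q` as `x^⊥ / x` in the net `Q`, where `x` is a base point. -/
structure NetData (t : Fin 3 → K) (q : Matrix (Fin 4) (Fin 4) K)
    (Q : Fin 3 → Matrix (Fin 6) (Fin 6) ℂ) (x : Fin 6 → ℂ) (l : K)
    (P : Matrix (Fin 6) (Fin 4) K) : Prop where
  hx : x ≠ 0
  hQx : ∀ i, qf (Q i) x = 0
  hl : l ≠ 0
  hP1 : ∀ u : Fin 4 → K, net Q t (act P u) = l * qf q u
  hP2 : ∀ u : Fin 4 → K, netp Q t (cst K x) (act P u) = 0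
  hP3 : ∀ (u : Fin 4 → K) (c : K), act P u = c • cst K x → u = 0
  hP4 : ∀ w : Fin 6 → K, netp Q t (cst K x) w = 0 →
    ∃ (u : Fin 4 → K) (c : K), w = act P u + c • cst K x
  hP5 : ∃ w : Fin 6 → K, netp Q t (cst K x) w ≠ 0

variable {Q : Fin 3 → Matrix (Fin 6) (Fin 6) ℂ} {x : Fin 6 → ℂ} {l : K}
    {P : Matrix (Fin 6) (Fin 4) K}

lemma NetData.hQxA (N : NetData t q Q x l P) (A : Type*) [CommRing A] [Algebra ℂ A] (i : Fin 3) :
    qf (Q i) (cst A x) = 0 := by
  have := map_qf (Algebra.ofId ℂ A) (Q i) x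
  rw [N.hQx, map_zero] at this
  exact this.symm

variable [Infinite K]

lemma NetData.hP1A (N : NetData t q Q x l P) {A : Type} [CommRing A] [Algebra ℂ A] [Algebra K A]
    [IsScalarTower ℂ K A] (u : Fin 4 → A) :
    net Q (fun i => algebraMap K A (t i)) (act P u) = algebraMap K A l * qf q u := by
  set D : MvPolynomial (Fin 4) K :=
    net Q (fun i => algebraMap K _ (t i)) (act P X) - algebraMap K _ l * qf q X with hD
  have key : ∀ (B : Type) [CommRing B] [Algebra ℂ B] [Algebra K B] [IsScalarTower ℂ K B]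
      (w : Fin 4 → B), aeval w D = net Q (fun i => algebraMap K B (t i)) (act P w) -
        algebraMap K B l * qf q w := by
    intro B _ _ _ _ w
    rw [hD, map_sub, map_mul]
    congr 1
    · have := map_net ((aeval (R := K) w).restrictScalars ℂ) Q
        (fun i => algebraMap K _ (t i)) (act P X)
      simp only [AlgHom.coe_restrictScalars'] at this
      rw [this]
      congr 1
      · funext i; simp
      · rw [map_act]; simp
    · congr 1
      · simp
      · rw [map_qf]; simp
  have h0 : ∀ w : Fin 4 → K, aeval w D = 0 := by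
    intro w
    rw [key K w]
    simp only [Algebra.algebraMap_self, RingHom.id_apply]
    rw [N.hP1 w, sub_self]
  have h1 := aeval_eq_zero_of_forall D h0 u
  rw [key A u] at h1
  exact sub_eq_zero.mp h1

lemma NetData.hP2A (N : NetData t q Q x l P) {A : Type} [CommRing A] [Algebra ℂ A] [Algebra K A]
    [IsScalarTower ℂ K A] (u : Fin 4 → A) :
    netp Q (fun i => algebraMap K A (t i)) (cst A x) (act P u) = 0 := by
  set D : MvPolynomial (Fin 4) K :=
    netp Q (fun i => algebraMap K _ (t i)) (cst _ x) (act P X) with hD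
  have key : ∀ (B : Type) [CommRing B] [Algebra ℂ B] [Algebra K B] [IsScalarTower ℂ K B]
      (w : Fin 4 → B), aeval w D =
        netp Q (fun i => algebraMap K B (t i)) (cst B x) (act P w) := by
    intro B _ _ _ _ w
    rw [hD]
    have := map_netp ((aeval (R := K) w).restrictScalars ℂ) Q
      (fun i => algebraMap K _ (t i)) (cst _ x) (act P X)
    simp only [AlgHom.coe_restrictScalars'] at this
    rw [this]
    congr 1
    · funext i; simp
    · funext i
      exact AlgHom.commutes ((aeval (R := K) w).restrictScalars ℂ) (x i)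
    · rw [map_act]; simp
  have h0 : ∀ w : Fin 4 → K, aeval w D = 0 := by
    intro w
    rw [key K w]
    simp only [Algebra.algebraMap_self, RingHom.id_apply]
    exact N.hP2 w
  have h1 := aeval_eq_zero_of_forall D h0 u
  rw [key A u] at h1
  exact h1

theorem QuadricPoint.projection (H : QuadricPoint K E t q η) (N : NetData t q Q x l P)
    (hne : pf (Q 1) (cst E x) (act P η) * qf (Q 2) (act P η) -
      pf (Q 2) (cst E x) (act P η) * qf (Q 1) (act P η) ≠ 0) : FourGenerated E := by
  classical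
  obtain ⟨i0, hi0⟩ : ∃ j, x j ≠ 0 := by
    by_contra h
    push Not at h
    exact N.hx (funext h)
  set xE : Fin 6 → E := cst E x with hxE
  have hxi0 : xE i0 ≠ 0 := by simpa [hxE, cst] using hi0
  set Z : Fin 6 → E := act P η with hZ
  set c : E := Z i0 / xE i0 with hc
  set Z' : Fin 6 → E := Z + (-c) • xE with hZ'
  have hxx : ∀ i, pf (Q i) xE xE = 0 := by
    intro i
    rw [pf_self, hxE, N.hQxA E i, mul_zero]
  have hxq : ∀ i, qf (Q i) xE = 0 := fun i => N.hQxA E i
  have ha' : ∀ i, pf (Q i) xE Z' = pf (Q i) xE Z := by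
    intro i
    rw [hZ', pf_add_right, pf_smul_right, hxx]
    ring
  have hb' : ∀ i, qf (Q i) Z' = qf (Q i) Z - c * pf (Q i) xE Z := by
    intro i
    rw [hZ', qf_add, qf_smul, pf_smul_right, hxq, pf_comm]
    ring
  have hZ'i0 : Z' i0 = 0 := by
    simp only [hZ', Pi.add_apply, Pi.smul_apply, smul_eq_mul, hc]
    field_simp
    simp
  obtain ⟨j0, hj0⟩ : ∃ j, Z' j ≠ 0 := by
    by_contra h
    push Not at h
    have hz : Z' = 0 := funext h
    apply hne
    rw [← ha' 1, ← ha' 2, hz, pf_zero_right, pf_zero_right]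
    ring
  have hij : j0 ≠ i0 := by
    rintro rfl
    exact hj0 hZ'i0
  set e : E := (Z' j0)⁻¹ with he
  have he0 : e ≠ 0 := inv_ne_zero hj0
  set Z'' : Fin 6 → E := e • Z' with hZ''
  let ι : Type := {i : Fin 6 // i ≠ i0 ∧ i ≠ j0}
  let z : ι → E := fun i => Z'' i
  have hcard : Fintype.card ι = 4 := by
    rw [Fintype.card_subtype]
    have : (Finset.univ.filter fun i : Fin 6 => i ≠ i0 ∧ i ≠ j0) = {i0, j0}ᶜ := by
      ext i; simp
    rw [this, Finset.card_compl, Finset.card_pair hij.symm]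
    simp
  refine ⟨ι, inferInstance, hcard, z, ?_⟩
  set F := IntermediateField.adjoin ℂ (Set.range z) with hF
  have hzF : ∀ i, z i ∈ F := fun i => IntermediateField.subset_adjoin ℂ _ ⟨i, rfl⟩
  have hZF : ∀ i, Z'' i ∈ F := by
    intro i
    by_cases h0 : i = i0
    · subst h0
      have : Z'' i = 0 := by simp [hZ'', hZ'i0]
      rw [this]; exact F.zero_mem
    by_cases h1 : i = j0
    · subst h1
      have : Z'' i = 1 := by
        simp only [hZ'', Pi.smul_apply, smul_eq_mul, he]
        exact inv_mul_cancel₀ hj0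
      rw [this]; exact F.one_mem
    exact hzF ⟨i, h0, h1⟩
  have hxF : ∀ i, xE i ∈ F := fun i => F.algebraMap_mem _
  set a : Fin 3 → E := fun i => pf (Q i) xE Z'' with ha
  set b : Fin 3 → E := fun i => qf (Q i) Z'' with hb
  have haF : ∀ i, a i ∈ F := fun i => pf_mem F _ hxF hZF
  have hbF : ∀ i, b i ∈ F := fun i => qf_mem F _ hZF
  have haZ : ∀ i, a i = e * pf (Q i) xE Z := by
    intro i
    rw [ha]
    simp only
    rw [hZ'', pf_smul_right, ha']
  have hbZ : ∀ i, b i = e ^ 2 * (qf (Q i) Z - c * pf (Q i) xE Z) := by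
    intro i
    rw [hb]
    simp only
    rw [hZ'', qf_smul, hb']
  set τ : Fin 3 → E := fun i => algebraMap K E (t i) with hτ
  have hτ0 : τ 0 = 1 := by simp [hτ, H.t0]
  have hta : a 0 + τ 1 * a 1 + τ 2 * a 2 = 0 := by
    have h := N.hP2A (A := E) η
    rw [netp, Fin.sum_univ_three] at h
    simp only [haZ]
    have h0 : algebraMap K E (t 0) = 1 := hτ0
    rw [h0] at h
    simp only [hτ]
    linear_combination e * h
  have htb : b 0 + τ 1 * b 1 + τ 2 * b 2 = 0 := by
    have h := N.hP1A (A := E) η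
    rw [H.hq, mul_zero, net, Fin.sum_univ_three] at h
    have h' := N.hP2A (A := E) η
    rw [netp, Fin.sum_univ_three] at h'
    simp only [hbZ]
    have h0 : algebraMap K E (t 0) = 1 := hτ0
    rw [h0] at h h'
    simp only [hτ]
    linear_combination e ^ 2 * h - c * e ^ 2 * h'
  have hc0 : a 1 * b 2 - a 2 * b 1 ≠ 0 := by
    have : a 1 * b 2 - a 2 * b 1 = e ^ 3 * (pf (Q 1) xE Z * qf (Q 2) Z -
        pf (Q 2) xE Z * qf (Q 1) Z) := by
      simp only [haZ, hbZ]
      ring
    rw [this]
    exact mul_ne_zero (pow_ne_zero _ he0) hne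
  have hc0F : a 1 * b 2 - a 2 * b 1 ∈ F :=
    F.sub_mem (F.mul_mem (haF 1) (hbF 2)) (F.mul_mem (haF 2) (hbF 1))
  have hτ1 : τ 1 ∈ F := by
    have : τ 1 = (a 2 * b 0 - a 0 * b 2) / (a 1 * b 2 - a 2 * b 1) := by
      rw [eq_div_iff hc0]
      linear_combination (b 2) * hta - a 2 * htb
    rw [this]
    exact F.div_mem (F.sub_mem (F.mul_mem (haF 2) (hbF 0)) (F.mul_mem (haF 0) (hbF 2))) hc0F
  have hτ2 : τ 2 ∈ F := by
    have : τ 2 = (a 0 * b 1 - a 1 * b 0) / (a 1 * b 2 - a 2 * b 1) := by
      rw [eq_div_iff hc0]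
      linear_combination (-b 1) * hta + a 1 * htb
    rw [this]
    exact F.div_mem (F.sub_mem (F.mul_mem (haF 0) (hbF 1)) (F.mul_mem (haF 1) (hbF 0))) hc0F
  have hKF : ∀ c : K, algebraMap K E c ∈ F := by
    apply H.hK F
    intro i
    fin_cases i
    · change τ 0 ∈ F
      rw [hτ0]; exact F.one_mem
    · exact hτ1
    · exact hτ2
  -- left inverse
  set P' : Matrix (Fin 6) (Fin 4) K :=
    fun i j => P i j - (cst K x i / cst K x i0) * P i0 j with hP'
  have hxK : cst K x i0 ≠ 0 := by simpa [cst] using hi0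
  have hP'u : ∀ u : Fin 4 → K, act P' u = act P u - (act P u i0 / cst K x i0) • cst K x := by
    intro u
    funext i
    simp only [act, hP', Pi.sub_apply, Pi.smul_apply, smul_eq_mul, sub_mul, map_sub,
      Finset.sum_sub_distrib, Algebra.algebraMap_self, RingHom.id_apply]
    congr 1
    rw [Finset.sum_div, Finset.sum_mul]
    refine Finset.sum_congr rfl fun j _ => ?_
    ring
  obtain ⟨Ψ, hΨ⟩ := exists_left_inverse P' (by
    intro u hu
    rw [← act_self, hP'u] at hu
    exact N.hP3 u _ (sub_eq_zero.mp hu))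
  have hP'η : act P' η = Z' := by
    funext i
    simp only [act, hP', map_sub, sub_mul, Finset.sum_sub_distrib, hZ', Pi.add_apply,
      Pi.smul_apply, smul_eq_mul, hZ, hc, hxE]
    rw [sub_eq_add_neg]
    congr 1
    simp only [map_mul, map_div₀, cst, ← IsScalarTower.algebraMap_apply ℂ K E]
    rw [neg_mul, Finset.sum_div, Finset.sum_mul]
    congr 1
    refine Finset.sum_congr rfl fun j _ => ?_
    ring
  refine H.eq_top F hKF e he0 fun i => ?_
  have : e * η i = act Ψ Z'' i := by
    rw [hZ'', act_smul, ← hP'η, ← act_mul, hΨ, act_one]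
    simp
  rw [this]
  exact F.sum_mem fun j _ => F.mul_mem (hKF _) (hZF j)

end

end Vale.Agent.P287
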