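import Vale.Agent.P287.Degenerate

/-!
The abstract form of the criterion: four generators of the function field.
-/

namespace Vale.Agent.P287

open MvPolynomial

variable {K E : Type} [Field K] [Field E] [Algebra ℂ K] [Algebra ℂ E] [Algebra K E]
    [IsScalarTower ℂ K E] {t : Fin 3 → K} {q : Matrix (Fin 4) (Fin 4) K} {η : Fin 4 → E}
    {Q : Fin 3 → Matrix (Fin 6) (Fin 6) ℂ} {x : Fin 6 → ℂ} {l : K}
    {P : Matrix (Fin 6) (Fin 4) K}

lemma qf_cst {A : Type*} [CommRing A] [Algebra ℂ A] {n : ℕ} (R : Matrix (Fin n) (Fin n) ℂ)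
    (v : Fin n → ℂ) : qf R (cst A v) = algebraMap ℂ A (qf R v) := by
  have := map_qf (Algebra.ofId ℂ A) R v
  exact this.symm

lemma pf_cst {A : Type*} [CommRing A] [Algebra ℂ A] {n : ℕ} (R : Matrix (Fin n) (Fin n) ℂ)
    (u v : Fin n → ℂ) : pf R (cst A u) (cst A v) = algebraMap ℂ A (pf R u v) := by
  have := map_pf (Algebra.ofId ℂ A) R u v
  exact this.symm

lemma pf_cst_left {n : ℕ} (R : Matrix (Fin n) (Fin n) ℂ)
    (u : Fin n → ℂ) (w : Fin n → K) :
    pf R (cst K u) w = ∑ i, algebraMap ℂ K (pf R u (Pi.single i 1)) * w i :=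
  pf_algebraMap_left (A := K) R u w

lemma NetData.pf_base (N : NetData t q Q x l P) (k : Fin 3) :
    pf (Q k) (cst K x) (cst K x) = 0 := by
  rw [pf_self, N.hQxA K k, mul_zero]

lemma NetData.lift (N : NetData t q Q x l P) (v : Fin 6 → ℂ) (hv : Ker Q x v) :
    ∃ u : Fin 4 → K, (∃ c : K, cst K v = act P u + c • cst K x) ∧
      (∀ k, pf (Q k) (cst K x) (act P u) = 0) ∧
      (∀ k, qf (Q k) (act P u) = algebraMap ℂ K (qf (Q k) v)) := by
  have h0 : netp Q t (cst K x) (cst K v) = 0 := by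
    rw [netp]
    refine Finset.sum_eq_zero fun k _ => ?_
    rw [pf_cst, hv k, map_zero, mul_zero]
  obtain ⟨u, c, huc⟩ := N.hP4 _ h0
  have hPu : act P u = cst K v + (-c) • cst K x := by
    rw [huc]
    funext i
    simp
  refine ⟨u, ⟨c, huc⟩, fun k => ?_, fun k => ?_⟩
  · rw [hPu, pf_add_right, pf_smul_right, N.pf_base, pf_cst, hv k, map_zero]
    ring
  · rw [hPu, qf_add, qf_smul, pf_smul_right, N.hQxA K k, pf_comm, pf_cst, hv k, qf_cst, map_zero]
    ring

theorem NetData.cub_ne_zero [CharZero K] (H : QuadricPoint K E t q η) (N : NetData t q Q x l P)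
    (hC : ∀ G : MvPolynomial (Fin 3) K, aeval (fun i : Fin 3 => η i.succ) G = 0 → fK q ∣ G)
    (tLI : ∀ c : Fin 3 → ℂ, ∑ k, algebraMap ℂ K (c k) * t k = 0 → c = 0)
    (aniso : ∀ v : Fin 4 → K, qf q v = 0 → v = 0) :
    cub Q x (act P η) ≠ 0 := by
  classical
  intro h0
  obtain ⟨L, hL⟩ := exists_linear H hC h0
  obtain ⟨i0, hi0⟩ : ∃ j, x j ≠ 0 := by
    by_contra h
    push Not at h
    exact N.hx (funext h)
  -- the star identity
  have star : ∀ w u0 : Fin 4 → K, (∀ k, pf (Q k) (cst K x) (act P u0) = 0) →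
      pf (Q 1) (cst K x) (act P w) * qf (Q 2) (act P u0) -
        pf (Q 2) (cst K x) (act P w) * qf (Q 1) (act P u0) = qf q u0 * ∑ i, L i * w i := by
    intro w u0 hu0
    have hc : ∀ c : K,
        pf (Q 1) (cst K x) (act P w) * (qf (Q 2) (act P w) + c ^ 2 * qf (Q 2) (act P u0) +
            c * pf (Q 2) (act P w) (act P u0)) -
          pf (Q 2) (cst K x) (act P w) * (qf (Q 1) (act P w) + c ^ 2 * qf (Q 1) (act P u0) +
            c * pf (Q 1) (act P w) (act P u0)) =
        (qf q w + c ^ 2 * qf q u0 + c * pf q w u0) *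
          (∑ i, L i * w i + c * ∑ i, L i * u0 i) := by
      intro c
      have h := hL (w + c • u0)
      rw [act_add, act_smul, cub, pf_add_right, pf_smul_right, hu0, pf_add_right, pf_smul_right,
        hu0, qf_add, qf_smul, pf_smul_right, qf_add, qf_smul, pf_smul_right, qf_add, qf_smul,
        pf_smul_right] at h
      have hs : ∑ i, L i * (w + c • u0) i = ∑ i, L i * w i + c * ∑ i, L i * u0 i := by
        rw [Finset.mul_sum, ← Finset.sum_add_distrib]
        refine Finset.sum_congr rfl fun i _ => ?_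
        simp only [Pi.add_apply, Pi.smul_apply, smul_eq_mul]
        ring
      rw [hs] at h
      linear_combination h
    have e0 := hc 0
    have e1 := hc 1
    have e2 := hc (-1)
    have e3 := hc 2
    have hBL : qf q u0 * ∑ i, L i * u0 i = 0 := by
      have : (6 : K) * (qf q u0 * ∑ i, L i * u0 i) = 0 := by
        linear_combination (-1 : K) * (e3 - 3 * e1 + 3 * e0 - e2)
      exact (mul_eq_zero.mp this).resolve_left (by norm_num)
    have hL1 : ∑ i, L i * u0 i = 0 := by
      rcases mul_eq_zero.mp hBL with h | h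
      · rw [aniso u0 h]
        simp
      · exact h
    have h2 : (2 : K) * (pf (Q 1) (cst K x) (act P w) * qf (Q 2) (act P u0) -
        pf (Q 2) (cst K x) (act P w) * qf (Q 1) (act P u0) - qf q u0 * ∑ i, L i * w i) = 0 := by
      linear_combination e1 + e2 - 2 * e0 + 2 * pf q w u0 * hL1
    have := (mul_eq_zero.mp h2).resolve_left two_ne_zero
    linear_combination this
  have ht0 := H.t0
  -- orthogonality
  have horth : ∀ v v' : Fin 6 → ℂ, Ker Q x v → Ker Q x v' → ∀ w : Fin 6 → K,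
      netp Q t (cst K x) w = 0 →
      pf (Q 0) (cst K x) w * (algebraMap ℂ K (bv Q v 1) * algebraMap ℂ K (bv Q v' 2) -
          algebraMap ℂ K (bv Q v 2) * algebraMap ℂ K (bv Q v' 1)) +
        pf (Q 1) (cst K x) w * (algebraMap ℂ K (bv Q v 2) * algebraMap ℂ K (bv Q v' 0) -
          algebraMap ℂ K (bv Q v 0) * algebraMap ℂ K (bv Q v' 2)) +
        pf (Q 2) (cst K x) w * (algebraMap ℂ K (bv Q v 0) * algebraMap ℂ K (bv Q v' 1) -
          algebraMap ℂ K (bv Q v 1) * algebraMap ℂ K (bv Q v' 0)) = 0 := by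
    intro v v' hv hv' w hw
    obtain ⟨u, _, hu1, hu2⟩ := N.lift v hv
    obtain ⟨u', _, hu1', hu2'⟩ := N.lift v' hv'
    obtain ⟨w0, c, hwc⟩ := N.hP4 w hw
    have hwk : ∀ k, pf (Q k) (cst K x) w = pf (Q k) (cst K x) (act P w0) := by
      intro k
      rw [hwc, pf_add_right, pf_smul_right, N.pf_base]
      ring
    rw [hwk, hwk, hwk]
    have s1 := star w0 u hu1
    have s2 := star w0 u' hu1'
    rw [hu2, hu2] at s1
    rw [hu2', hu2'] at s2
    have q1 := N.hP1 u
    have q2 := N.hP1 u'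
    rw [net, Fin.sum_univ_three, hu2, hu2, hu2, ht0] at q1
    rw [net, Fin.sum_univ_three, hu2', hu2', hu2', ht0] at q2
    have p1 := N.hP2 w0
    rw [netp, Fin.sum_univ_three, ht0] at p1
    simp only [bv]
    set b0 := algebraMap ℂ K (qf (Q 0) v)
    set b1 := algebraMap ℂ K (qf (Q 1) v)
    set b2 := algebraMap ℂ K (qf (Q 2) v)
    set c0 := algebraMap ℂ K (qf (Q 0) v')
    set c1 := algebraMap ℂ K (qf (Q 1) v')
    set c2 := algebraMap ℂ K (qf (Q 2) v')
    set N0 := pf (Q 0) (cst K x) (act P w0)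
    set N1 := pf (Q 1) (cst K x) (act P w0)
    set N2 := pf (Q 2) (cst K x) (act P w0)
    set S := ∑ i, L i * w0 i
    linear_combination (1 * c0 + t 1 * c1 + t 2 * c2) * s1 - (1 * b0 + t 1 * b1 + t 2 * b2) * s2 +
      S * qf q u * q2 - S * qf q u' * q1 + (b1 * c2 - b2 * c1) * p1
  have hcols : ∀ (k : Fin 3) (i : Fin 6),
      pf (Q k) (cst K x) (Pi.single i 1) = algebraMap ℂ K (nv Q x i k) := by
    intro k i
    rw [pf_cst_left, Finset.sum_eq_single i]
    · simp [nv]
    · intro j _ hj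
      simp [Pi.single_eq_of_ne hj]
    · simp
  have hκ : ∀ v v' : Fin 6 → ℂ, Ker Q x v → Ker Q x v' → ∀ i j : Fin 6, ∀ m,
      det3 (nv Q x i) (bv Q v) (bv Q v') * nv Q x j m =
        det3 (nv Q x j) (bv Q v) (bv Q v') * nv Q x i m := by
    intro v v' hv hv' i j
    set Ti : K := ∑ k, t k * algebraMap ℂ K (nv Q x i k) with hTi
    set Tj : K := ∑ k, t k * algebraMap ℂ K (nv Q x j k) with hTj
    set w : Fin 6 → K := Tj • Pi.single i 1 + (-Ti) • Pi.single j 1 with hw
    have hwk : ∀ k, pf (Q k) (cst K x) w =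
        Tj * algebraMap ℂ K (nv Q x i k) - Ti * algebraMap ℂ K (nv Q x j k) := by
      intro k
      rw [hw, pf_add_right, pf_smul_right, pf_smul_right, hcols, hcols]
      ring
    have hw0 : netp Q t (cst K x) w = 0 := by
      rw [netp]
      simp only [hwk]
      have : ∀ k, t k * (Tj * algebraMap ℂ K (nv Q x i k) - Ti * algebraMap ℂ K (nv Q x j k)) =
          Tj * (t k * algebraMap ℂ K (nv Q x i k)) - Ti * (t k * algebraMap ℂ K (nv Q x j k)) :=
        fun k => by ring
      simp only [this, Finset.sum_sub_distrib, ← Finset.mul_sum]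
      rw [← hTi, ← hTj]
      ring
    have h1 := horth v v' hv hv' w hw0
    rw [hwk, hwk, hwk] at h1
    have h2 := tLI (fun m => det3 (nv Q x i) (bv Q v) (bv Q v') * nv Q x j m -
        det3 (nv Q x j) (bv Q v) (bv Q v') * nv Q x i m) (by
      rw [Fin.sum_univ_three]
      rw [hTi, hTj, Fin.sum_univ_three, Fin.sum_univ_three] at h1
      simp only [det3, map_sub, map_mul, map_add]
      linear_combination h1)
    intro m
    have := congrFun h2 m
    simp only [Pi.zero_apply] at this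
    exact sub_eq_zero.mp this
  have hn : ∃ i k, nv Q x i k ≠ 0 := by
    by_contra h
    push Not at h
    obtain ⟨w, hw⟩ := N.hP5
    apply hw
    rw [netp]
    refine Finset.sum_eq_zero fun k _ => ?_
    rw [pf_cst_left]
    have : ∀ i, pf (Q k) x (Pi.single i 1) = 0 := fun i => h i k
    simp [this]
  obtain ⟨v, hv0, hvi, hvK, hvQ⟩ := exists_constant_zero Q x i0 hκ hn
  obtain ⟨u, ⟨c, huc⟩, _, hu2⟩ := N.lift v hvK
  have hqu : qf q u = 0 := by
    have h := N.hP1 u
    rw [net, Finset.sum_eq_zero] at h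
    · exact (mul_eq_zero.mp h.symm).resolve_left N.hl
    · intro k _
      rw [hu2, hvQ, map_zero, mul_zero]
  have hu : u = 0 := aniso u hqu
  rw [hu] at huc
  have hPz : act P (0 : Fin 4 → K) = 0 := by
    funext i
    simp [act]
  rw [hPz, zero_add] at huc
  have hc : c = 0 := by
    have h1 := congrFun huc i0
    simp only [cst, hvi, map_zero, Pi.smul_apply, smul_eq_mul] at h1
    rcases mul_eq_zero.mp h1.symm with h | h
    · exact h
    · exact absurd ((map_eq_zero (algebraMap ℂ K)).mp h) hi0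
  apply hv0
  funext i
  have h1 := congrFun huc i
  rw [hc] at h1
  simp only [cst, Pi.smul_apply, smul_eq_mul, zero_mul] at h1
  exact (map_eq_zero (algebraMap ℂ K)).mp h1

/-- Abstract form of the criterion. -/
theorem fourGenerated_of_netData [CharZero K] (H : QuadricPoint K E t q η)
    (N : NetData t q Q x l P)
    (hC : ∀ G : MvPolynomial (Fin 3) K, aeval (fun i : Fin 3 => η i.succ) G = 0 → fK q ∣ G)
    (tLI : ∀ c : Fin 3 → ℂ, ∑ k, algebraMap ℂ K (c k) * t k = 0 → c = 0) :
    FourGenerated E := by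
  by_cases h : ∀ v : Fin 4 → K, qf q v = 0 → v = 0
  · exact H.projection N (N.cub_ne_zero H hC tLI h)
  · push Not at h
    obtain ⟨v, hqv, hv⟩ := h
    exact H.isotropic v hv hqv

end Vale.Agent.P287
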