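import Vale.Agent.P287.Smooth

/-!
Smoothness of the cubic implies that the quadric surface over `ℂ(s₀, s₁)` is nondegenerate.
-/

namespace Vale.Agent.P287

open MvPolynomial

/-- `(1, s₀, s₁)` in the polynomial ring. -/
noncomputable def tpoly : Fin 3 → MvPolynomial (Fin 2) ℂ := ![1, X 0, X 1]

lemma algebraMap_tpoly (k : Fin 3) :
    algebraMap (MvPolynomial (Fin 2) ℂ) RatK (tpoly k) = tvec k := by
  fin_cases k <;> simp [tpoly, tvec]

lemma map_wvec {A A' : Type*} [CommRing A] [CommRing A'] [Algebra ℂ A] [Algebra ℂ A']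
    (g : A →ₐ[ℂ] A') (t : Fin 3 → A) (v : Fin 4 → A) :
    (fun i => g (wvec t v i)) = wvec (fun k => g (t k)) (fun j => g (v j)) := by
  funext i
  fin_cases i <;> simp [wvec]

/-- The comparison between the polynomial ring and its fraction field. -/
lemma netp_tpoly (B : Fin 3 → Matrix (Fin 6) (Fin 6) ℂ) (v w : Fin 4 → MvPolynomial (Fin 2) ℂ) :
    algebraMap (MvPolynomial (Fin 2) ℂ) RatK (netp B tpoly (wvec tpoly v) (wvec tpoly w)) =
      pf (qmat B) (fun i => algebraMap _ RatK (v i)) (fun i => algebraMap _ RatK (w i)) := by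
  have h := map_netp (IsScalarTower.toAlgHom ℂ (MvPolynomial (Fin 2) ℂ) RatK) B tpoly
    (wvec tpoly v) (wvec tpoly w)
  rw [map_wvec, map_wvec] at h
  simp only [IsScalarTower.coe_toAlgHom', algebraMap_tpoly] at h
  rw [h, pf_qmat]

lemma pd00 : pderiv 0 (tpoly 0) = 0 := by simp [tpoly]
lemma pd01 : pderiv 0 (tpoly 1) = 1 := by simp [tpoly]
lemma pd02 : pderiv 0 (tpoly 2) = 0 := by simp [tpoly]
lemma pd10 : pderiv 1 (tpoly 0) = 0 := by simp [tpoly]
lemma pd11 : pderiv 1 (tpoly 1) = 0 := by simp [tpoly]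
lemma pd12 : pderiv 1 (tpoly 2) = 1 := by simp [tpoly]

lemma grad_one (B : Fin 3 → Matrix (Fin 6) (Fin 6) ℂ) (v' : Fin 4 → MvPolynomial (Fin 2) ℂ) :
    aeval (wvec tpoly v') (pderiv 1 (cubic B)) =
      ∑ k, pderiv 0 (tpoly k) * qf (B k) (wvec tpoly v') +
        v' 0 * netp B tpoly (wvec tpoly v') (wvec (fun k => pderiv 0 (tpoly k))
        (Pi.single 0 1)) := by
  rw [grad_wvec]
  have e : wvec (fun k => pderiv 0 (tpoly k)) (Pi.single 0 1) =
      (Pi.single 1 1 : Fin 6 → MvPolynomial (Fin 2) ℂ) := by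
    funext i
    fin_cases i
    · simp [wvec, pd00]
    · simp [wvec, pd01]
    · simp [wvec, pd02]
    · simp [wvec]
    · simp [wvec]
    · simp [wvec]
  rw [e]
  have h : ∑ k : Fin 3, (Pi.single (1 : Fin 6) (1 : MvPolynomial (Fin 2) ℂ) : Fin 6 → _)
      (Fin.castAdd 3 k) * qf (B k) (wvec tpoly v') =
      ∑ k, pderiv 0 (tpoly k) * qf (B k) (wvec tpoly v') := by
    rw [Fin.sum_univ_three, Fin.sum_univ_three, pd00, pd01, pd02]
    simp [Pi.single_apply]
  rw [h]

lemma grad_two (B : Fin 3 → Matrix (Fin 6) (Fin 6) ℂ) (v' : Fin 4 → MvPolynomial (Fin 2) ℂ) :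
    aeval (wvec tpoly v') (pderiv 2 (cubic B)) =
      ∑ k, pderiv 1 (tpoly k) * qf (B k) (wvec tpoly v') +
        v' 0 * netp B tpoly (wvec tpoly v') (wvec (fun k => pderiv 1 (tpoly k))
        (Pi.single 0 1)) := by
  rw [grad_wvec]
  have e : wvec (fun k => pderiv 1 (tpoly k)) (Pi.single 0 1) =
      (Pi.single 2 1 : Fin 6 → MvPolynomial (Fin 2) ℂ) := by
    funext i
    fin_cases i
    · simp [wvec, pd10]
    · simp [wvec, pd11]
    · simp [wvec, pd12]
    · simp [wvec]
    · simp [wvec]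
    · simp [wvec]
  rw [e]
  have h : ∑ k : Fin 3, (Pi.single (2 : Fin 6) (1 : MvPolynomial (Fin 2) ℂ) : Fin 6 → _)
      (Fin.castAdd 3 k) * qf (B k) (wvec tpoly v') =
      ∑ k, pderiv 1 (tpoly k) * qf (B k) (wvec tpoly v') := by
    rw [Fin.sum_univ_three, Fin.sum_univ_three, pd10, pd11, pd12]
    simp [Pi.single_apply]
  rw [h]

theorem nondegenerate_of_smooth (B : Fin 3 → Matrix (Fin 6) (Fin 6) ℂ)
    (hs : SmoothForm (cubic B)) (v : Fin 4 → RatK) (hv : ∀ w, pf (qmat B) v w = 0) : v = 0 := by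
  classical
  by_contra hv0
  -- clear denominators
  obtain ⟨d, hd⟩ := IsLocalization.exist_integer_multiples_of_finite
    (nonZeroDivisors (MvPolynomial (Fin 2) ℂ)) v
  choose v' hv' using hd
  have hd0 : algebraMap (MvPolynomial (Fin 2) ℂ) RatK (d : MvPolynomial (Fin 2) ℂ) ≠ 0 := by
    intro h
    exact nonZeroDivisors.coe_ne_zero d ((map_eq_zero_iff _ (IsFractionRing.injective _ _)).mp h)
  have hvd : (fun i => algebraMap (MvPolynomial (Fin 2) ℂ) RatK (v' i)) =
      algebraMap (MvPolynomial (Fin 2) ℂ) RatK (d : MvPolynomial (Fin 2) ℂ) • v := by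
    funext i
    rw [hv' i]
    simp [Algebra.smul_def]
  have hv'0 : v' ≠ 0 := by
    intro h
    apply hv0
    rw [h] at hvd
    have : (algebraMap (MvPolynomial (Fin 2) ℂ) RatK (d : MvPolynomial (Fin 2) ℂ)) • v = 0 := by
      rw [← hvd]
      funext i
      simp
    exact (smul_eq_zero.mp this).resolve_left hd0
  have hp : ∀ w : Fin 4 → MvPolynomial (Fin 2) ℂ,
      netp B tpoly (wvec tpoly v') (wvec tpoly w) = 0 := by
    intro w
    apply IsFractionRing.injective (MvPolynomial (Fin 2) ℂ) RatK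
    rw [netp_tpoly, hvd, pf_smul_left, hv, mul_zero, map_zero]
  have h0 : net B tpoly (wvec tpoly v') = 0 := by
    have h1 := hp v'
    rw [netp_self] at h1
    exact (mul_eq_zero.mp h1).resolve_left two_ne_zero
  have ht : tpoly 0 = 1 := rfl
  set P : Fin 6 → MvPolynomial (Fin 2) ℂ := wvec tpoly v' with hP
  -- derivatives
  have hder : ∀ (D : Derivation ℂ (MvPolynomial (Fin 2) ℂ) (MvPolynomial (Fin 2) ℂ)),
      ∑ k, D (tpoly k) * qf (B k) P + v' 0 * netp B tpoly P (wvec (fun k => D (tpoly k))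
        (Pi.single 0 1)) = 0 := by
    intro D
    have h1 := congrArg D h0
    rw [net, map_sum, map_zero] at h1
    have h2 : ∀ k, D (tpoly k * qf (B k) P) =
        D (tpoly k) * qf (B k) P + tpoly k * pf (B k) P (fun i => D (P i)) := by
      intro k
      rw [Derivation.leibniz, derivation_qf, smul_eq_mul, smul_eq_mul]
      ring
    simp only [h2, Finset.sum_add_distrib] at h1
    have h3 : (fun i => D (P i)) = wvec tpoly (fun j => D (v' j)) +
        v' 0 • wvec (fun k => D (tpoly k)) (Pi.single 0 1) := by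
      funext i
      fin_cases i <;> simp [hP, wvec, Derivation.leibniz, mul_comm, add_comm]
    have h4 : ∑ k, tpoly k * pf (B k) P (fun i => D (P i)) = netp B tpoly P (fun i => D (P i)) := rfl
    rw [h4, h3, netp_add_right, hp, zero_add, netp_smul_right] at h1
    exact h1
  have hall := all_partials B tpoly ht v' h0 (fun i => hp _)
    ((grad_one B v').trans (hder (pderiv 0))) ((grad_two B v').trans (hder (pderiv 1)))
  -- specialise
  obtain ⟨i, hi⟩ : ∃ i, P i ≠ 0 := by
    obtain ⟨j, hj⟩ : ∃ j, v' j ≠ 0 := by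
      by_contra h
      push Not at h
      exact hv'0 (funext h)
    refine Fin.cases (motive := fun j => v' j ≠ 0 → ∃ i, P i ≠ 0) (fun h => ⟨0, ?_⟩)
      (fun j h => ⟨Fin.natAdd 3 j, ?_⟩) j hj
    · simpa [hP, wvec, ht] using h
    · fin_cases j <;> simpa [hP, wvec] using h
  obtain ⟨s, hsi⟩ : ∃ s : Fin 2 → ℂ, aeval s (P i) ≠ 0 := by
    by_contra h
    push Not at h
    apply hi
    apply MvPolynomial.funext
    intro s
    have := h s
    rw [MvPolynomial.aeval_eq_eval] at this
    simpa using this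
  have hz := hs (fun j => aeval s (P j)) (by
    intro j
    have h1 := congrArg (aeval (R := ℂ) s) (hall j)
    rw [map_zero] at h1
    rw [← h1, ← MvPolynomial.comp_aeval_apply])
  exact hsi (congrFun hz i)

end Vale.Agent.P287
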