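import Vale.Agent.P287.Rational

/-!
From a similarity `q ⊥ H ≃ l • net` to the data of a base point.
-/

namespace Vale.Agent.P287

open MvPolynomial

/-- Three quadratic forms in six variables have a common nontrivial zero. -/
lemma exists_base_point (Q : Fin 3 → Matrix (Fin 6) (Fin 6) ℂ) :
    ∃ x : Fin 6 → ℂ, x ≠ 0 ∧ ∀ i, qf (Q i) x = 0 := by
  obtain ⟨x, hx, h⟩ := exists_common_zero (k := ℂ) (by norm_num : 3 < 6)
    (fun k => qf (Q k) (X : Fin 6 → MvPolynomial (Fin 6) ℂ)) (fun k => by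
      rw [aeval_qf_X, qf_zero])
  exact ⟨x, hx, fun k => by rw [← aeval_qf_X]; exact h k⟩

/-- The key computation: a hyperbolic splitting gives the data of a base point or an isotropic
vector. -/
theorem exists_netData {q : Matrix (Fin 4) (Fin 4) RatK} {Q : Fin 3 → Matrix (Fin 6) (Fin 6) ℂ}
    {l : RatK} (hl : l ≠ 0)
    (φ : ((Fin 4 → RatK) × RatK × RatK) ≃ₗ[RatK] (Fin 6 → RatK))
    (hφ : ∀ v a b, net Q tvec (φ (v, a, b)) = l * (qf q v + a * b))
    (x : Fin 6 → ℂ) (hx : x ≠ 0) (hQx : ∀ i, qf (Q i) x = 0)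
    (v0 : Fin 4 → RatK) (a b : RatK) (hxφ : cst RatK x = φ (v0, a, b)) (ha : a ≠ 0) :
    ∃ P, NetData tvec q Q x l P := by
  -- polar form
  have hpol : ∀ (u u' : Fin 4 → RatK) (c d c' d' : RatK),
      netp Q tvec (φ (u, c, d)) (φ (u', c', d')) = l * (pf q u u' + c * d' + c' * d) := by
    intro u u' c d c' d'
    have h := net_add Q tvec (φ (u, c, d)) (φ (u', c', d'))
    rw [← map_add, Prod.mk_add_mk, Prod.mk_add_mk, hφ, hφ, hφ, qf_add] at h
    linear_combination -h
  have hnx : net Q tvec (cst RatK x) = 0 := by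
    rw [net]
    refine Finset.sum_eq_zero fun k _ => ?_
    rw [qf_cst, hQx, map_zero, mul_zero]
  have hqab : qf q v0 + a * b = 0 := by
    rw [hxφ, hφ] at hnx
    exact (mul_eq_zero.mp hnx).resolve_left hl
  -- the linear map
  let L : (Fin 4 → RatK) →ₗ[RatK] (Fin 6 → RatK) :=
    φ.toLinearMap.comp (LinearMap.prod LinearMap.id
      (LinearMap.prod 0 ((-a⁻¹) • pfL q v0)))
  have hL : ∀ u, L u = φ (u, 0, -a⁻¹ * pf q v0 u) := by
    intro u
    rfl
  refine ⟨LinearMap.toMatrix' L, ?_⟩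
  have hact : ∀ u : Fin 4 → RatK, act (LinearMap.toMatrix' L) u = φ (u, 0, -a⁻¹ * pf q v0 u) := by
    intro u
    rw [act_self, ← hL, ← Matrix.toLin'_apply, Matrix.toLin'_toMatrix']
  refine ⟨hx, hQx, hl, ?_, ?_, ?_, ?_, ?_⟩
  · intro u
    rw [hact, hφ]
    ring
  · intro u
    rw [hact, hxφ, hpol]
    field_simp
    ring
  · intro u c h
    rw [hact, hxφ, ← map_smul] at h
    have h1 := φ.injective h
    simp only [Prod.smul_mk, Prod.mk.injEq, smul_eq_mul] at h1
    obtain ⟨h2, h3, _⟩ := h1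
    have hc : c = 0 := by
      rcases mul_eq_zero.mp h3.symm with h | h
      · exact h
      · exact absurd h ha
    rw [h2, hc, zero_smul]
  · intro w hw
    obtain ⟨⟨u', a', b'⟩, rfl⟩ := φ.surjective w
    rw [hxφ, hpol] at hw
    have hw' := (mul_eq_zero.mp hw).resolve_left hl
    refine ⟨u' - (a' / a) • v0, a' / a, ?_⟩
    rw [hact, hxφ, ← map_smul, ← map_add]
    congr 1
    simp only [Prod.smul_mk, Prod.mk_add_mk, Prod.mk.injEq, smul_eq_mul]
    refine ⟨by simp, by field_simp; simp, ?_⟩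
    have h1 : pf q v0 (u' - (a' / a) • v0) = pf q v0 u' - (a' / a) * (2 * qf q v0) := by
      rw [sub_eq_add_neg, ← neg_smul, pf_add_right, pf_smul_right, pf_self]
      ring
    rw [h1]
    have h2 : qf q v0 = - (a * b) := by linear_combination hqab
    rw [h2]
    have h3 : pf q v0 u' = - (a * b') - a' * b := by linear_combination hw'
    rw [h3]
    field_simp
    ring
  · refine ⟨φ (0, 0, 1), ?_⟩
    rw [hxφ, hpol, pf_zero_right]
    simp [hl, ha]

end Vale.Agent.P287
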